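import Vale.Agent.P066.Prog

/-!
Chromatic quasisymmetric functions in `N` colours, the modular law as an identity between
pairs of colourings, disjoint unions and cliques.
-/

namespace Vale.Agent.P066

open MvPolynomial

noncomputable def ph {α : Type*} [LinearOrder α] (x y : α) : K :=
  if x = y then 0 else if x < y then q else 1

noncomputable def cw {N n : ℕ} (g : ℕ → ℕ) (f : Fin n → Fin N) : K :=
  ∏ a : Fin n, ∏ b : Fin n, if a < b ∧ g b ≤ (a : ℕ) then ph (f a) (f b) else 1

noncomputable def Chi (N : ℕ) (g : ℕ → ℕ) (n : ℕ) : MvPolynomial (Fin N) K :=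
  ∑ f : Fin n → Fin N, C (cw g f) * ∏ a, X (f a)

def pairs (g : ℕ → ℕ) (n : ℕ) : Finset (Fin n × Fin n) :=
  Finset.univ.filter fun p => p.1 < p.2 ∧ g p.2 ≤ (p.1 : ℕ)

theorem cw_eq {N n : ℕ} (g : ℕ → ℕ) (f : Fin n → Fin N) :
    cw g f = ∏ p ∈ pairs g n, ph (f p.1) (f p.2) := by
  rw [cw, pairs, Finset.prod_filter, Fintype.prod_prod_type]

theorem ph_law1 {α : Type*} [LinearOrder α] (c x y : α) :
    (1 + q) * (ph c x * ph x y + ph c y * ph y x) =
      q * (ph x y + ph y x) + ph c x * ph c y * (ph x y + ph y x) := by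
  rcases lt_trichotomy x y with h | h | h <;> rcases lt_trichotomy c x with h' | h' | h' <;>
    rcases lt_trichotomy c y with h'' | h'' | h''
  all_goals
    first
    | (exfalso; order)
    | (simp [ph, h, h', h'', h.ne, h'.ne, h''.ne, h.ne', h'.ne', h''.ne', h.not_gt, h'.not_gt,
        h''.not_gt]; ring)
    | (subst_vars; simp [ph]; done)
    | (subst_vars; simp [ph, ne_of_lt, ne_of_gt, not_lt_of_gt, *]; ring)

theorem ph_law2 {α : Type*} [LinearOrder α] (c x y : α) :
    (1 + q) * (ph y c * ph x y + ph x c * ph y x) =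
      q * (ph x y + ph y x) + ph x c * ph y c * (ph x y + ph y x) := by
  rcases lt_trichotomy x y with h | h | h <;> rcases lt_trichotomy c x with h' | h' | h' <;>
    rcases lt_trichotomy c y with h'' | h'' | h''
  all_goals
    first
    | (exfalso; order)
    | (simp [ph, h, h', h'', h.ne, h'.ne, h''.ne, h.ne', h'.ne', h''.ne', h.not_gt, h'.not_gt,
        h''.not_gt]; ring)
    | (subst_vars; simp [ph]; done)
    | (subst_vars; simp [ph, ne_of_lt, ne_of_gt, not_lt_of_gt, *]; ring)

/-- Three edge sets differing around twins `k`, `k'`. -/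
theorem chi_mod {N n : ℕ} (k k' : Fin n) (E : Finset (Fin n × Fin n))
    (hE : ∀ p ∈ E, (Equiv.swap k k' p.1, Equiv.swap k k' p.2) ∈ E)
    (w1 w0 w2 : (Fin n → Fin N) → K)
    (h : ∀ f : Fin n → Fin N, (1 + q) * (w1 f + w1 (f ∘ Equiv.swap k k')) =
      q * (w0 f + w0 (f ∘ Equiv.swap k k')) + (w2 f + w2 (f ∘ Equiv.swap k k'))) :
    (C (1 + q) : MvPolynomial (Fin N) K) *
        ∑ f : Fin n → Fin N, C ((∏ p ∈ E, ph (f p.1) (f p.2)) * w1 f) * ∏ a, X (f a) =
      C q * ∑ f : Fin n → Fin N, C ((∏ p ∈ E, ph (f p.1) (f p.2)) * w0 f) * ∏ a, X (f a) +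
        ∑ f : Fin n → Fin N, C ((∏ p ∈ E, ph (f p.1) (f p.2)) * w2 f) * ∏ a, X (f a) := by
  rw [Finset.mul_sum, Finset.mul_sum, ← Finset.sum_add_distrib, ← sub_eq_zero,
    ← Finset.sum_sub_distrib]
  set s := Equiv.swap k k' with hs
  set T : (Fin n → Fin N) → MvPolynomial (Fin N) K := fun f =>
    C ((∏ p ∈ E, ph (f p.1) (f p.2)) * ((1 + q) * w1 f - q * w0 f - w2 f)) * ∏ a, X (f a)
  have hT : ∀ f, T f + T (f ∘ s) = 0 := by
    intro f
    have e1 : (∏ a, (X ((f ∘ s) a) : MvPolynomial (Fin N) K)) = ∏ a, X (f a) :=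
      Equiv.prod_comp s fun a => (X (f a) : MvPolynomial (Fin N) K)
    have e2 : (∏ p ∈ E, ph ((f ∘ s) p.1) ((f ∘ s) p.2)) = ∏ p ∈ E, ph (f p.1) (f p.2) := by
      refine Finset.prod_nbij' (fun p => (s p.1, s p.2)) (fun p => (s p.1, s p.2)) hE hE ?_ ?_ ?_
      all_goals intro p _; simp [hs]
    simp only [T]
    rw [e1, e2, ← add_mul, ← map_add, ← mul_add]
    rw [show (1 + q) * w1 f - q * w0 f - w2 f +
        ((1 + q) * w1 (f ∘ s) - q * w0 (f ∘ s) - w2 (f ∘ s)) = 0 by linear_combination h f]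
    simp
  have h2 : (2 : MvPolynomial (Fin N) K) * ∑ f, T f = 0 := by
    rw [two_mul]
    nth_rewrite 2 [← Equiv.sum_comp (Equiv.arrowCongr s (Equiv.refl _)) T]
    rw [← Finset.sum_add_distrib]
    refine Finset.sum_eq_zero fun f _ => ?_
    have : (Equiv.arrowCongr s (Equiv.refl (Fin N))) f = f ∘ s := by
      funext a; simp [hs]
    rw [this]; exact hT f
  have h3 := (mul_eq_zero.1 h2).resolve_left two_ne_zero
  rw [← h3]
  refine Finset.sum_congr rfl fun f _ => ?_
  simp only [T, map_mul, map_sub, map_add, map_one]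
  ring

theorem mem_pairs {g : ℕ → ℕ} {n : ℕ} {p : Fin n × Fin n} :
    p ∈ pairs g n ↔ (p.1 : ℕ) < p.2 ∧ g p.2 ≤ p.1 := by
  simp [pairs]

theorem swap_val {n : ℕ} (k k' x : Fin n) :
    ((Equiv.swap k k' x : Fin n) : ℕ) =
      if (x : ℕ) = k then (k' : ℕ) else if (x : ℕ) = k' then (k : ℕ) else x := by
  simp only [Equiv.swap_apply_def, Fin.ext_iff]
  split_ifs <;> rfl

theorem Chi_modI {N : ℕ} {g : ℕ → ℕ} {n j a : ℕ} (hg : Good g n) (hj : j + 1 < n) (h1 : g j = a)
    (h2 : g (j + 1) = a) (ha : a < j) (hne : ∀ u, u < n → g u ≠ j + 1) :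
    C (1 + q) * Chi N (Function.update g (j + 1) (a + 1)) n =
      C q * Chi N (Function.update (Function.update g (j + 1) (a + 1)) j (a + 1)) n +
        Chi N g n := by
  set g1 := Function.update g (j + 1) (a + 1) with hg1
  set g0 := Function.update g1 j (a + 1) with hg0
  let k : Fin n := ⟨j, by omega⟩
  let k' : Fin n := ⟨j + 1, hj⟩
  let v : Fin n := ⟨a, by omega⟩
  set E := (pairs g0 n).erase (k, k') with hE
  have o0 : ∀ x, g0 x = if x = j ∨ x = j + 1 then a + 1 else g x := by
    intro x; simp only [hg0, hg1, Function.update_apply]; split_ifs <;> simp_all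
  have o1 : ∀ x, g1 x = if x = j + 1 then a + 1 else g x := by
    intro x; simp only [hg1, Function.update_apply]
  have inE : ∀ p : Fin n × Fin n, p ∈ E ↔ ¬((p.1 : ℕ) = j ∧ (p.2 : ℕ) = j + 1) ∧
      (p.1 : ℕ) < p.2 ∧ g0 p.2 ≤ p.1 := by
    intro p; simp [hE, mem_pairs, Prod.ext_iff, Fin.ext_iff, k, k']
  have kk : (k, k') ∈ pairs g0 n := by
    simp [mem_pairs, k, k', o0]; omega
  have p1 : pairs g1 n = insert (v, k) (pairs g0 n) := by
    ext p
    simp only [Finset.mem_insert, mem_pairs, Prod.ext_iff, Fin.ext_iff, o0, o1, v, k]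
    by_cases c1 : (p.2 : ℕ) = j
    · simp [c1, h1, show ¬ j = j + 1 by omega]; omega
    · simp [c1]
  have p2 : pairs g n = insert (v, k') (pairs g1 n) := by
    ext p
    simp only [Finset.mem_insert, mem_pairs, Prod.ext_iff, Fin.ext_iff, o1, v, k']
    by_cases c1 : (p.2 : ℕ) = j + 1
    · simp [c1, h2]; omega
    · simp [c1]
  have n1 : (v, k) ∉ pairs g0 n := by simp [mem_pairs, o0, v, k]
  have n2 : (v, k') ∉ pairs g1 n := by simp [mem_pairs, o1, v, k']
  have hsw : ∀ p ∈ E, (Equiv.swap k k' p.1, Equiv.swap k k' p.2) ∈ E := by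
    intro p hp
    rw [inE] at hp ⊢
    obtain ⟨hp1, hp2, hp3⟩ := hp
    have := p.2.isLt
    have hh := hne p.2 this
    have hle : (p.2 : ℕ) ≠ j → (p.2 : ℕ) ≠ j + 1 → g p.2 ≤ p.2 := fun _ _ => hg.le_self _ this
    have hk : (k : ℕ) = j := rfl
    have hk' : (k' : ℕ) = j + 1 := rfl
    have sval : ∀ x : Fin n, ((x : ℕ) = j ∧ (Equiv.swap k k' x : ℕ) = j + 1) ∨
        ((x : ℕ) = j + 1 ∧ (Equiv.swap k k' x : ℕ) = j) ∨
        ((x : ℕ) ≠ j ∧ (x : ℕ) ≠ j + 1 ∧ (Equiv.swap k k' x : ℕ) = x) := by
      intro x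
      have := swap_val k k' x
      simp only [hk, hk'] at this
      split_ifs at this <;> omega
    have low : (p.2 : ℕ) = j ∨ (p.2 : ℕ) = j + 1 → g0 p.2 ≤ j := by
      rintro (e | e) <;> simp [o0, e] <;> omega
    have high : (p.2 : ℕ) ≠ j → (p.2 : ℕ) ≠ j + 1 → g0 p.2 ≠ j + 1 := by
      intro e e'; simp [o0, e, e', hh]
    have key : g0 (Equiv.swap k k' p.2 : ℕ) = g0 p.2 := by
      rcases sval p.2 with ⟨e, e'⟩ | ⟨e, e'⟩ | ⟨-, -, e'⟩ <;> rw [e'] <;> simp [o0, e]
    rcases sval p.1 with s1 | s1 | s1 <;> rcases sval p.2 with s2 | s2 | s2 <;>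
      simp only [not_and] at hp1 ⊢ <;>
      refine ⟨?_, ?_, ?_⟩ <;>
      first
      | omega
      | (have := key; have := low; have := high; omega)
  have e0 : ∀ f : Fin n → Fin N, cw g0 f =
      (∏ p ∈ E, ph (f p.1) (f p.2)) * ph (f k) (f k') := by
    intro f; rw [cw_eq, hE, Finset.prod_erase_mul _ _ kk]
  have e1 : ∀ f : Fin n → Fin N, cw g1 f =
      (∏ p ∈ E, ph (f p.1) (f p.2)) * (ph (f v) (f k) * ph (f k) (f k')) := by
    intro f
    rw [cw_eq, p1, Finset.prod_insert n1, ← cw_eq, e0]
    ring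
  have e2 : ∀ f : Fin n → Fin N, cw g f =
      (∏ p ∈ E, ph (f p.1) (f p.2)) * (ph (f v) (f k) * ph (f v) (f k') * ph (f k) (f k')) := by
    intro f
    rw [cw_eq, p2, Finset.prod_insert n2, ← cw_eq, e1]
    ring
  simp only [Chi, e0, e1, e2]
  refine chi_mod k k' E hsw (fun f => ph (f v) (f k) * ph (f k) (f k'))
    (fun f => ph (f k) (f k')) (fun f => ph (f v) (f k) * ph (f v) (f k') * ph (f k) (f k')) ?_
  intro f
  have sv : Equiv.swap k k' v = v :=
    Equiv.swap_apply_of_ne_of_ne (Fin.ne_of_val_ne (by simp [v, k]; omega))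
      (Fin.ne_of_val_ne (by simp [v, k']; omega))
  simp only [Function.comp_apply, sv, Equiv.swap_apply_left, Equiv.swap_apply_right]
  linear_combination ph_law1 (f v) (f k) (f k')

theorem Chi_modII {N : ℕ} {g : ℕ → ℕ} {n u t : ℕ} (hg : Good g n) (hu : u < n) (h1 : g u = t + 1)
    (htu : t + 2 ≤ u) (htw : g t = g (t + 1)) (hbelow : g (u - 1) ≤ t)
    (habove : u + 1 < n → t + 2 ≤ g (u + 1)) :
    C (1 + q) * Chi N g n =
      C q * Chi N (Function.update g u (t + 2)) n + Chi N (Function.update g u t) n := by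
  set g2 := Function.update g u t with hg2
  set g0 := Function.update g u (t + 2) with hg0
  let k : Fin n := ⟨t, by omega⟩
  let k' : Fin n := ⟨t + 1, by omega⟩
  let v : Fin n := ⟨u, hu⟩
  set E := (pairs g0 n).erase (k, k') with hE
  have hne : ∀ x, x < n → x ≠ u → g x ≠ t + 1 := by
    intro x hx hxu he
    rcases Nat.lt_or_ge x u with hl | hl
    · have := hg.mono x (u - 1) (by omega) (by omega); omega
    · have := hg.mono (u + 1) x (by omega) hx
      have := habove (by omega); omega
  have hat : g (t + 1) ≤ t := htw ▸ hg.le_self t (by omega)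
  have o0 : ∀ x, g0 x = if x = u then t + 2 else g x := fun x => by
    simp only [hg0, Function.update_apply]
  have o2 : ∀ x, g2 x = if x = u then t else g x := fun x => by
    simp only [hg2, Function.update_apply]
  have inE : ∀ p : Fin n × Fin n, p ∈ E ↔ ¬((p.1 : ℕ) = t ∧ (p.2 : ℕ) = t + 1) ∧
      (p.1 : ℕ) < p.2 ∧ g0 p.2 ≤ p.1 := by
    intro p; simp [hE, mem_pairs, Prod.ext_iff, Fin.ext_iff, k, k']
  have kk : (k, k') ∈ pairs g0 n := by
    simp [mem_pairs, k, k', o0, show ¬ t + 1 = u by omega]; omega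
  have p1 : pairs g n = insert (k', v) (pairs g0 n) := by
    ext p
    simp only [Finset.mem_insert, mem_pairs, Prod.ext_iff, Fin.ext_iff, o0, v, k']
    by_cases c1 : (p.2 : ℕ) = u
    · simp [c1, h1]; omega
    · simp [c1]
  have p2 : pairs g2 n = insert (k, v) (pairs g n) := by
    ext p
    simp only [Finset.mem_insert, mem_pairs, Prod.ext_iff, Fin.ext_iff, o2, v, k]
    by_cases c1 : (p.2 : ℕ) = u
    · simp [c1, h1]; omega
    · simp [c1]
  have n1 : (k', v) ∉ pairs g0 n := by simp [mem_pairs, o0, v, k']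
  have n2 : (k, v) ∉ pairs g n := by simp [mem_pairs, h1, v, k]
  have hsw : ∀ p ∈ E, (Equiv.swap k k' p.1, Equiv.swap k k' p.2) ∈ E := by
    intro p hp
    rw [inE] at hp ⊢
    obtain ⟨hp1, hp2, hp3⟩ := hp
    have := p.2.isLt
    have hh := hne p.2 this
    have hk : (k : ℕ) = t := rfl
    have hk' : (k' : ℕ) = t + 1 := rfl
    have sval : ∀ x : Fin n, ((x : ℕ) = t ∧ (Equiv.swap k k' x : ℕ) = t + 1) ∨
        ((x : ℕ) = t + 1 ∧ (Equiv.swap k k' x : ℕ) = t) ∨
        ((x : ℕ) ≠ t ∧ (x : ℕ) ≠ t + 1 ∧ (Equiv.swap k k' x : ℕ) = x) := by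
      intro x
      have := swap_val k k' x
      simp only [hk, hk'] at this
      split_ifs at this <;> omega
    have low : (p.2 : ℕ) = t ∨ (p.2 : ℕ) = t + 1 → g0 p.2 ≤ t := by
      rintro (e | e) <;> simp [o0, e, show ¬ t = u by omega, show ¬ t + 1 = u by omega] <;> omega
    have high : (p.2 : ℕ) ≠ t → (p.2 : ℕ) ≠ t + 1 → g0 p.2 ≠ t + 1 := by
      intro _ _
      rw [o0]; split_ifs with e
      · omega
      · exact hh e
    have key : g0 (Equiv.swap k k' p.2 : ℕ) = g0 p.2 := by
      rcases sval p.2 with ⟨e, e'⟩ | ⟨e, e'⟩ | ⟨-, -, e'⟩ <;> rw [e'] <;>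
        simp [o0, e, show ¬ t = u by omega, show ¬ t + 1 = u by omega, htw]
    rcases sval p.1 with s1 | s1 | s1 <;> rcases sval p.2 with s2 | s2 | s2 <;>
      simp only [not_and] at hp1 ⊢ <;>
      refine ⟨?_, ?_, ?_⟩ <;>
      first
      | omega
      | (have := key; have := low; have := high; omega)
  have e0 : ∀ f : Fin n → Fin N, cw g0 f =
      (∏ p ∈ E, ph (f p.1) (f p.2)) * ph (f k) (f k') := by
    intro f; rw [cw_eq, hE, Finset.prod_erase_mul _ _ kk]
  have e1 : ∀ f : Fin n → Fin N, cw g f =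
      (∏ p ∈ E, ph (f p.1) (f p.2)) * (ph (f k') (f v) * ph (f k) (f k')) := by
    intro f
    rw [cw_eq, p1, Finset.prod_insert n1, ← cw_eq, e0]
    ring
  have e2 : ∀ f : Fin n → Fin N, cw g2 f =
      (∏ p ∈ E, ph (f p.1) (f p.2)) * (ph (f k) (f v) * ph (f k') (f v) * ph (f k) (f k')) := by
    intro f
    rw [cw_eq, p2, Finset.prod_insert n2, ← cw_eq, e1]
    ring
  simp only [Chi, e0, e1, e2]
  refine chi_mod k k' E hsw (fun f => ph (f k') (f v) * ph (f k) (f k'))
    (fun f => ph (f k) (f k')) (fun f => ph (f k) (f v) * ph (f k') (f v) * ph (f k) (f k')) ?_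
  intro f
  have sv : Equiv.swap k k' v = v :=
    Equiv.swap_apply_of_ne_of_ne (Fin.ne_of_val_ne (by simp [v, k]; omega))
      (Fin.ne_of_val_ne (by simp [v, k']; omega))
  simp only [Function.comp_apply, sv, Equiv.swap_apply_left, Equiv.swap_apply_right]
  linear_combination ph_law2 (f v) (f k) (f k')

theorem Chi_split {N : ℕ} {g : ℕ → ℕ} {n m : ℕ} (hg : Good g n) (hm : m < n) (h : g m = m) :
    Chi N g n = Chi N g m * Chi N (fun x => g (x + m) - m) (n - m) := by
  obtain ⟨r, rfl⟩ : ∃ r, n = m + r := ⟨n - m, by omega⟩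
  rw [Nat.add_sub_cancel_left]
  simp only [Chi]
  rw [Finset.sum_mul_sum, ← Fintype.sum_prod_type',
    ← Equiv.sum_comp (Fin.appendEquiv m r) (fun f => C (cw g f) * ∏ a, (X (f a) : MvPolynomial (Fin N) K))]
  refine Finset.sum_congr rfl fun ⟨f1, f2⟩ _ => ?_
  simp only [Fin.appendEquiv, Equiv.coe_fn_mk, Fin.prod_univ_add, Fin.append_left, Fin.append_right]
  have key : cw g (Fin.append f1 f2) = cw g f1 * cw (fun x => g (x + m) - m) f2 := by
    simp only [cw, Fin.prod_univ_add, Fin.append_left, Fin.append_right, Fin.lt_def,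
      Fin.val_castAdd, Fin.val_natAdd, Finset.prod_mul_distrib]
    have z1 : (∏ a : Fin m, ∏ b : Fin r,
        if (a : ℕ) < m + b ∧ g (m + b) ≤ (a : ℕ) then ph (f1 a) (f2 b) else 1) = 1 := by
      refine Finset.prod_eq_one fun a _ => Finset.prod_eq_one fun b _ => if_neg ?_
      have := hg.mono m (m + b) (by omega) (by omega)
      omega
    have z2 : (∏ a : Fin r, ∏ b : Fin m,
        if m + (a : ℕ) < b ∧ g b ≤ m + (a : ℕ) then ph (f2 a) (f1 b) else 1) = 1 := by
      refine Finset.prod_eq_one fun a _ => Finset.prod_eq_one fun b _ => if_neg ?_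
      omega
    rw [z1, z2, mul_one, one_mul]
    congr 1
    refine Finset.prod_congr rfl fun a _ => Finset.prod_congr rfl fun b _ => if_congr ?_ rfl rfl
    have := hg.mono m (m + b) (by omega) (by omega)
    rw [add_comm (b : ℕ) m]
    omega
  rw [key, map_mul]
  ring

theorem sum_rank {N : ℕ} (T : Finset (Fin N)) :
    ∑ c ∈ T, q ^ (T.filter (· < c)).card = qn T.card := by
  induction T using Finset.induction_on_max with
  | empty => simp
  | insert m T hm ih =>
    have hmT : m ∉ T := fun h => lt_irrefl m (hm m h)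
    rw [Finset.sum_insert hmT, Finset.card_insert_of_notMem hmT, qn_succ', add_comm]
    congr 1
    · rw [← ih]
      refine Finset.sum_congr rfl fun c hc => ?_
      congr 2
      rw [Finset.filter_insert, if_neg (not_lt.2 (hm c hc).le)]
    · congr 2
      rw [Finset.filter_insert, if_neg (lt_irrefl m), Finset.filter_true_of_mem hm]

noncomputable def cl {N n : ℕ} (f : Fin n → Fin N) : K :=
  ∏ a : Fin n, ∏ b : Fin n, if a < b then ph (f a) (f b) else 1

theorem cl_zero {N n : ℕ} {f : Fin n → Fin N} (h : ¬ Function.Injective f) : cl f = 0 := by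
  rw [Function.not_injective_iff] at h
  obtain ⟨a, b, he, hab⟩ := h
  rcases lt_or_gt_of_ne hab with hl | hl
  · exact Finset.prod_eq_zero (Finset.mem_univ a)
      (Finset.prod_eq_zero (Finset.mem_univ b) (by simp [hl, ph, he]))
  · exact Finset.prod_eq_zero (Finset.mem_univ b)
      (Finset.prod_eq_zero (Finset.mem_univ a) (by simp [hl, ph, he]))

theorem cl_snoc {N n : ℕ} (f : Fin n → Fin N) (c : Fin N) :
    cl (Fin.snoc f c : Fin (n + 1) → Fin N) = cl f * ∏ a, ph (f a) c := by
  simp [cl, Fin.prod_univ_castSucc, Finset.prod_mul_distrib,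
    fun x : Fin n => not_lt.2 (Fin.le_last x.castSucc)]

theorem cl_sum {N : ℕ} : ∀ (n : ℕ) (T : Finset (Fin N)), T.card = n →
    ∑ f ∈ (Finset.univ : Finset (Fin n → Fin N)).filter (fun f => Finset.univ.image f = T), cl f =
      qfact n := by
  intro n
  induction n with
  | zero =>
    intro T hT
    rw [Finset.card_eq_zero.1 hT]
    simp [cl, qfact]
  | succ n ih =>
    intro T hT
    rw [Finset.sum_filter,
      ← Equiv.sum_comp (Fin.snocEquiv fun _ : Fin (n + 1) => Fin N), Fintype.sum_prod_type]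
    have inner : ∀ c : Fin N, (∑ f : Fin n → Fin N,
        if Finset.univ.image (Fin.snoc f c : Fin (n + 1) → Fin N) = T then
          cl (Fin.snoc f c : Fin (n + 1) → Fin N) else 0) =
        if c ∈ T then q ^ (T.filter (· < c)).card * qfact n else 0 := by
      intro c
      have im : ∀ f : Fin n → Fin N, Finset.univ.image (Fin.snoc f c : Fin (n + 1) → Fin N) =
          insert c (Finset.univ.image f) := by
        intro f
        ext x
        simp [Fin.exists_fin_succ', or_comm, eq_comm]
      by_cases hc : c ∈ T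
      · rw [if_pos hc, ← ih (T.erase c) (by rw [Finset.card_erase_of_mem hc, hT]; rfl),
          Finset.mul_sum, ← Finset.sum_filter]
        symm
        apply Finset.sum_subset_zero_on_sdiff
        · intro f hf
          simp only [Finset.mem_filter, Finset.mem_univ, true_and] at hf ⊢
          rw [im, hf, Finset.insert_erase hc]
        · intro f hf
          simp only [Finset.mem_sdiff, Finset.mem_filter, Finset.mem_univ, true_and] at hf
          rw [im] at hf
          apply cl_zero
          intro hinj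
          apply hf.2
          have h2 := congrArg Finset.card hf.1
          by_cases hm : c ∈ Finset.univ.image f
          · obtain ⟨a, _, ha⟩ := Finset.mem_image.1 hm
            exact absurd (@hinj a.castSucc (Fin.last n) (by simp [ha])) (Fin.castSucc_lt_last a).ne
          · rw [← hf.1, Finset.erase_insert hm]
        · intro f hf
          simp only [Finset.mem_filter, Finset.mem_univ, true_and] at hf
          have hinj : Function.Injective f := by
            rw [← Set.injOn_univ, ← Finset.coe_univ, ← Finset.card_image_iff, hf,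
              Finset.card_erase_of_mem hc, hT]
            simp
          rw [cl_snoc, mul_comm]
          congr 1
          have hne : ∀ a, f a ≠ c := fun a e => by
            have : f a ∈ T.erase c := hf ▸ Finset.mem_image_of_mem f (Finset.mem_univ a)
            simp [e] at this
          have hcard : (T.filter (· < c)).card =
              (Finset.univ.filter fun a => f a < c).card := by
            rw [← Finset.card_image_of_injective _ hinj]
            congr 1
            ext x
            simp only [Finset.mem_filter, Finset.mem_image, Finset.mem_univ, true_and]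
            constructor
            · rintro ⟨hx, hlt⟩
              have : x ∈ Finset.univ.image f := hf ▸ Finset.mem_erase.2 ⟨hlt.ne, hx⟩
              obtain ⟨a, _, rfl⟩ := Finset.mem_image.1 this
              exact ⟨a, hlt, rfl⟩
            · rintro ⟨a, hlt, rfl⟩
              have : f a ∈ T.erase c := hf ▸ Finset.mem_image_of_mem f (Finset.mem_univ a)
              exact ⟨Finset.mem_of_mem_erase this, hlt⟩
          rw [hcard]
          simp [ph, hne, Finset.prod_ite]
      · rw [if_neg hc]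
        refine Finset.sum_eq_zero fun f _ => if_neg fun h => hc ?_
        rw [← h, im]
        exact Finset.mem_insert_self ..
    refine (Finset.sum_congr rfl fun c _ => inner c).trans ?_
    rw [← Finset.sum_filter, Finset.filter_mem_eq_inter, Finset.univ_inter, ← Finset.sum_mul,
      sum_rank, hT, qfact]

theorem Chi_clique {N : ℕ} (g : ℕ → ℕ) (n : ℕ) (hg : ∀ v, v < n → g v = 0) :
    Chi N g n = C (qfact n) * esymm (Fin N) K n := by
  have e : ∀ f : Fin n → Fin N, cw g f = cl f := by
    intro f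
    refine Finset.prod_congr rfl fun a _ => Finset.prod_congr rfl fun b _ => if_congr ?_ rfl rfl
    simp [hg b b.isLt]
  simp only [Chi, e]
  rw [esymm, Finset.mul_sum]
  rw [← Finset.sum_filter_of_ne (p := fun f => Finset.univ.image f ∈
    Finset.powersetCard n (Finset.univ : Finset (Fin N))) (fun f _ hne => ?_)]
  · rw [← Finset.sum_fiberwise_of_maps_to (t := Finset.powersetCard n Finset.univ)
      (g := fun f : Fin n → Fin N => Finset.univ.image f)
      (fun f hf => (Finset.mem_filter.1 hf).2)]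
    refine Finset.sum_congr rfl fun T hT => ?_
    obtain ⟨-, hcard⟩ := Finset.mem_powersetCard.1 hT
    rw [← cl_sum n T hcard, map_sum, Finset.sum_mul, Finset.filter_filter]
    refine Finset.sum_congr (by ext f; simp; rintro rfl; exact hcard) fun f hf => ?_
    simp only [Finset.mem_filter] at hf
    have hinj : Function.Injective f := by
      rw [← Set.injOn_univ, ← Finset.coe_univ, ← Finset.card_image_iff, hf.2, hcard]
      simp
    rw [← hf.2, Finset.prod_image hinj.injOn]
  · by_contra h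
    apply hne
    rw [cl_zero (fun hinj => h (Finset.mem_powersetCard.2
      ⟨Finset.subset_univ _, by simp [Finset.card_image_of_injective _ hinj]⟩))]
    simp

end Vale.Agent.P066
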