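import Vale.Agent.P066.Main

/-!
Back to the definition of the chromatic quasisymmetric function over integer polynomials.
-/

namespace Vale.Agent.P066

open MvPolynomial

noncomputable def iota : Polynomial ℤ →+* K := Polynomial.eval₂RingHom (Int.castRingHom K) q

theorem iota_injective : Function.Injective iota := by
  have h : ∀ p : Polynomial ℤ, iota p =
      algebraMap (Polynomial ℚ) K (p.map (Int.castRingHom ℚ)) := by
    intro p
    induction p using Polynomial.induction_on' with
    | add a b ha hb => simp [ha, hb, map_add, Polynomial.map_add]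
    | monomial k c =>
      simp [iota, q, ← Polynomial.C_mul_X_pow_eq_monomial, Polynomial.map_mul, Polynomial.map_pow,
        -eq_intCast, Polynomial.eval₂_C]
  intro a b hab
  rw [h, h] at hab
  exact Polynomial.map_injective _ Int.cast_injective (RatFunc.algebraMap_injective ℚ hab)

/-- `{a, b}` with `a < b` is an edge. -/
abbrev isEdge {n : ℕ} (h : Fin n → Fin n) (a b : Fin n) : Prop := a < b ∧ b ≤ h a

/-- The polynomial over `ℤ[q]`. -/
noncomputable def chromZ (N : ℕ) {n : ℕ} (h : Fin n → Fin n) :
    MvPolynomial (Fin N) (Polynomial ℤ) :=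
  ∑ f ∈ (Finset.univ : Finset (Fin n → Fin N)).filter
      (fun f => ∀ a b, isEdge h a b → f a ≠ f b),
    C (Polynomial.X ^ ((Finset.univ : Finset (Fin n × Fin n)).filter
      (fun p => isEdge h p.1 p.2 ∧ f p.1 < f p.2)).card) * ∏ a, X (f a)

def gh {n : ℕ} (h : Fin n → Fin n) (v : ℕ) : ℕ :=
  ((Finset.univ : Finset (Fin n)).filter fun u => (h u : ℕ) < v).card

theorem gh_le_iff {n : ℕ} {h : Fin n → Fin n} (hm : Monotone h) (a : Fin n) (v : ℕ) :
    gh h v ≤ a ↔ v ≤ (h a : ℕ) := by
  constructor
  · intro hle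
    by_contra hc
    push Not at hc
    have sub : Finset.Iic a ⊆ (Finset.univ : Finset (Fin n)).filter fun u => (h u : ℕ) < v := by
      intro u hu
      have := Fin.le_def.1 (hm (Finset.mem_Iic.1 hu))
      simp; omega
    have := Finset.card_le_card sub
    rw [Fin.card_Iic] at this
    simp only [gh] at hle
    omega
  · intro hle
    have sub : ((Finset.univ : Finset (Fin n)).filter fun u => (h u : ℕ) < v) ⊆ Finset.Iio a := by
      intro u hu
      simp at hu
      rw [Finset.mem_Iio]
      by_contra hc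
      push Not at hc
      have := Fin.le_def.1 (hm hc)
      omega
    have := Finset.card_le_card sub
    rwa [Fin.card_Iio] at this

theorem gh_good {n : ℕ} {h : Fin n → Fin n} (hm : Monotone h) (hle : ∀ i, i ≤ h i) :
    Good (gh h) n := by
  constructor
  · intro v hv
    exact (gh_le_iff hm ⟨v, hv⟩ v).2 (Fin.le_def.1 (hle ⟨v, hv⟩))
  · intro u v huv _
    apply Finset.card_le_card
    intro x hx
    simp at hx ⊢
    omega

theorem gh_two {n : ℕ} {h : Fin n → Fin n} (hm : Monotone h) (hle : ∀ i, i ≤ h i)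
    (h2 : ∀ i, (h i : ℕ) ≤ i + 2) : ∀ v, v < n → v ≤ gh h v + 2 := by
  intro v hv
  have hlt : gh h v < n := lt_of_le_of_lt ((gh_good hm hle).le_self v hv) hv
  have := (gh_le_iff hm ⟨gh h v, hlt⟩ v).1 le_rfl
  have h3 : (h ⟨gh h v, hlt⟩ : ℕ) ≤ gh h v + 2 := h2 ⟨gh h v, hlt⟩
  omega

theorem map_chromZ (N : ℕ) {n : ℕ} {h : Fin n → Fin n} (hm : Monotone h) :
    MvPolynomial.map iota (chromZ N h) = Chi N (gh h) n := by
  rw [chromZ, map_sum, Finset.sum_filter, Chi]
  refine Finset.sum_congr rfl fun f _ => ?_
  have hE : ∀ p : Fin n × Fin n, p ∈ pairs (gh h) n ↔ isEdge h p.1 p.2 := by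
    intro p; rw [mem_pairs, gh_le_iff hm]; rfl
  split_ifs with hp
  · simp only [map_mul, map_prod, MvPolynomial.map_C, MvPolynomial.map_X]
    congr 2
    rw [cw_eq, map_pow, show iota Polynomial.X = q by simp [iota]]
    rw [Finset.prod_congr rfl (g := fun p => if f p.1 < f p.2 then q else 1) fun p hp' => by
      rw [ph, if_neg (hp _ _ ((hE p).1 hp'))]]
    rw [Finset.prod_ite, Finset.prod_const, Finset.prod_const_one, mul_one]
    congr 2
    ext p
    simp [hE]
  · push Not at hp
    obtain ⟨a, b, hab, he⟩ := hp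
    rw [cw_eq, Finset.prod_eq_zero ((hE (a, b)).2 hab) (by simp [ph, he]), map_zero, zero_mul]

theorem chromZ_homogeneous (N : ℕ) {n : ℕ} (h : Fin n → Fin n) :
    (chromZ N h).IsHomogeneous n := by
  refine MvPolynomial.IsHomogeneous.sum _ _ _ fun f _ => ?_
  have := MvPolynomial.IsHomogeneous.mul (isHomogeneous_C (Fin N) (Polynomial.X ^ ((Finset.univ :
      Finset (Fin n × Fin n)).filter (fun p => isEdge h p.1 p.2 ∧ f p.1 < f p.2)).card :
      Polynomial ℤ))
    (MvPolynomial.IsHomogeneous.prod (Finset.univ : Finset (Fin n)) (fun a => X (f a))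
      (fun _ => 1) (fun a _ => isHomogeneous_X _ _))
  simpa using this

theorem esymm_homogeneous (N k : ℕ) :
    (esymm (Fin N) (Polynomial ℤ) k).IsHomogeneous k := by
  refine MvPolynomial.IsHomogeneous.sum _ _ _ fun t ht => ?_
  have := MvPolynomial.IsHomogeneous.prod t (fun i => (X i : MvPolynomial (Fin N) (Polynomial ℤ)))
      (fun _ => 1) (fun i _ => isHomogeneous_X _ _)
  simpa [(Finset.mem_powersetCard.1 ht).2] using this

theorem prod_esymm_homogeneous (N : ℕ) (s : Multiset ℕ) :
    ((s.map (esymm (Fin N) (Polynomial ℤ))).prod).IsHomogeneous s.sum := by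
  induction s using Multiset.induction_on with
  | empty => simpa using isHomogeneous_one (Fin N) (Polynomial ℤ)
  | cons a s ih => simpa using (esymm_homogeneous N a).mul ih

theorem prod_filter_esymm (N : ℕ) (s : Multiset ℕ) :
    ((s.filter (· ≠ 0)).map (esymm (Fin N) (Polynomial ℤ))).prod =
      (s.map (esymm (Fin N) (Polynomial ℤ))).prod := by
  induction s using Multiset.induction_on with
  | empty => simp
  | cons a s ih =>
    rcases Nat.eq_zero_or_pos a with rfl | ha
    · simpa [esymm_zero] using ih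
    · rw [Multiset.filter_cons_of_pos (p := fun x => x ≠ 0) _ (show a ≠ 0 by omega)]
      simp [ih]

theorem exists_expansion {n : ℕ} {h : Fin n → Fin n} (hm : Monotone h) (hle : ∀ i, i ≤ h i)
    (h2 : ∀ i, (h i : ℕ) ≤ i + 2) :
    ∃ c : Nat.Partition n → Polynomial ℕ, ∀ N : ℕ, chromZ N h =
      ∑ l : Nat.Partition n, C ((c l).map (Nat.castRingHom ℤ)) * esymmPart (Fin N) (Polynomial ℤ) l := by
  classical
  obtain ⟨p, hp⟩ := Psi_pos (gh_good hm hle) (gh_two hm hle h2)
  refine ⟨fun l => ∑ d ∈ p.support.filter (fun d => (Finsupp.toMultiset d).sum = n ∧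
      (Finsupp.toMultiset d).filter (· ≠ 0) = l.parts), p.coeff d, fun N => ?_⟩
  set E : (ℕ →₀ ℕ) → MvPolynomial (Fin N) (Polynomial ℤ) :=
    fun d => ((Finsupp.toMultiset d).map (esymm (Fin N) (Polynomial ℤ))).prod with hE
  have e1 : chromZ N h = ∑ d ∈ p.support,
      C ((p.coeff d).map (Nat.castRingHom ℤ)) * E d := by
    apply MvPolynomial.map_injective iota iota_injective
    rw [map_chromZ N hm, map_sum]
    have hH := hikita N n (gh h) (gh_good hm hle)
    rw [Del, sub_eq_zero] at hH
    rw [hH, ← hp]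
    conv_lhs => rw [p.as_sum]
    rw [map_sum, map_sum]
    refine Finset.sum_congr rfl fun d _ => ?_
    rw [phi, MvPolynomial.map_monomial, aeval_monomial, MvPolynomial.algebraMap_eq, map_mul,
      MvPolynomial.map_C]
    congr 1
    · congr 1
      rw [hom, iota, Polynomial.coe_eval₂RingHom, Polynomial.coe_eval₂RingHom, Polynomial.eval₂_map]
      congr 1
    · rw [hE]
      simp only [map_multiset_prod, Multiset.map_map, Function.comp_def, map_esymm]
      rw [Finsupp.toMultiset_map, Finsupp.prod_toMultiset, Finsupp.prod_mapDomain_index]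
      · exact fun _ => pow_zero _
      · exact fun _ _ _ => pow_add _ _ _
  have e2 := congrArg (homogeneousComponent n) e1
  rw [homogeneousComponent_of_mem ((mem_homogeneousSubmodule _ _).2 (chromZ_homogeneous N h)),
    if_pos rfl, map_sum] at e2
  rw [e2]
  have e3 : ∀ d ∈ p.support, homogeneousComponent n (C ((p.coeff d).map (Nat.castRingHom ℤ)) * E d) =
      if (Finsupp.toMultiset d).sum = n then C ((p.coeff d).map (Nat.castRingHom ℤ)) * E d else 0 := by
    intro d _
    have hh : (C ((p.coeff d).map (Nat.castRingHom ℤ)) * E d).IsHomogeneous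
        (Finsupp.toMultiset d).sum := by
      simpa using (isHomogeneous_C (Fin N) ((p.coeff d).map (Nat.castRingHom ℤ))).mul
        (prod_esymm_homogeneous N (Finsupp.toMultiset d))
    rw [homogeneousComponent_of_mem ((mem_homogeneousSubmodule _ _).2 hh)]
    by_cases hd : (Finsupp.toMultiset d).sum = n <;> simp [hd, eq_comm]
  rw [Finset.sum_congr rfl e3]
  simp only [Polynomial.map_sum, map_sum, Finset.sum_mul, Finset.sum_filter]
  rw [Finset.sum_comm]
  refine Finset.sum_congr rfl fun d _ => ?_
  by_cases hd : (Finsupp.toMultiset d).sum = n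
  · set l0 := Nat.Partition.ofSums n (Finsupp.toMultiset d) hd with hl0
    rw [if_pos hd, Finset.sum_eq_single_of_mem l0 (Finset.mem_univ _)]
    · split_ifs with h'
      · congr 1
        rw [esymmPart, hl0, hE]
        exact (prod_filter_esymm N _).symm
      · exact absurd ⟨hd, rfl⟩ h'
    · intro l _ hl
      split_ifs with h'
      · exact absurd (Nat.Partition.ext h'.2.symm) hl
      · simp
  · rw [if_neg hd]
    refine (Finset.sum_eq_zero fun l _ => ?_).symm
    split_ifs with h'
    · exact absurd h'.1 hd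
    · simp

theorem expansion_unique {n : ℕ} (d : Nat.Partition n → Polynomial ℤ)
    (h : ∑ l : Nat.Partition n, C (d l) * esymmPart (Fin n) (Polynomial ℤ) l = 0) : d = 0 := by
  classical
  set ex : Nat.Partition n → (Fin n →₀ ℕ) :=
    fun l => Finsupp.equivFunOnFinite.symm fun i : Fin n => l.parts.count ((i : ℕ) + 1) with hex
  have hbound : ∀ (l : Nat.Partition n) {m : ℕ}, m ∈ l.parts → 0 < m ∧ m ≤ n := by
    intro l m hm
    exact ⟨l.parts_pos hm, by simpa [l.parts_sum] using Multiset.le_sum_of_mem hm⟩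
  have hexv : ∀ l (i : Fin n), ex l i = l.parts.count ((i : ℕ) + 1) := fun l i => by simp [hex]
  have hinj : Function.Injective ex := by
    intro l l' hl
    apply Nat.Partition.ext
    ext m
    by_cases hm : 0 < m ∧ m ≤ n
    · have := congrArg (fun e => e ⟨m - 1, by omega⟩) hl
      simp only [hexv, show m - 1 + 1 = m by omega] at this
      exact this
    · rw [Multiset.count_eq_zero.2 fun h' => hm (hbound l h'),
        Multiset.count_eq_zero.2 fun h' => hm (hbound l' h')]
  set P : MvPolynomial (Fin n) (Polynomial ℤ) := ∑ l, monomial (ex l) (d l) with hP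
  have hz : P = 0 := by
    apply esymmAlgHom_fin_injective (Polynomial ℤ) (le_refl n)
    rw [map_zero]
    apply Subtype.ext
    rw [esymmAlgHom_apply, ZeroMemClass.coe_zero, hP, map_sum, ← h]
    refine Finset.sum_congr rfl fun l _ => ?_
    rw [aeval_monomial, MvPolynomial.algebraMap_eq, esymmPart, Finset.prod_multiset_map_count,
      Finsupp.prod_fintype _ _ fun i => pow_zero _]
    congr 1
    rw [Finset.prod_subset (s₂ := (Finset.univ : Finset (Fin n)).image fun i : Fin n => (i : ℕ) + 1)
      ?_ fun m _ hm => by rw [Multiset.count_eq_zero.2 (by simpa using hm), pow_zero],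
      Finset.prod_image]
    · simp [hexv]
    · intro a _ b _ hab; exact Fin.ext (by simpa using hab)
    · intro m hm
      obtain ⟨h0, h1⟩ := hbound l (Multiset.mem_toFinset.1 hm)
      exact Finset.mem_image.2 ⟨⟨m - 1, by omega⟩, Finset.mem_univ _, by simp; omega⟩
  funext l
  have := congrArg (coeff (ex l)) hz
  simpa [hP, coeff_sum, coeff_monomial, hinj.eq_iff] using this

theorem unique_expansion {n : ℕ} {h : Fin n → Fin n} (hm : Monotone h) (hle : ∀ i, i ≤ h i)
    (h2 : ∀ i, (h i : ℕ) ≤ i + 2) :
    ∃! c : Nat.Partition n → Polynomial ℕ, ∀ N : ℕ, chromZ N h =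
      ∑ l : Nat.Partition n, C ((c l).map (Nat.castRingHom ℤ)) * esymmPart (Fin N) (Polynomial ℤ) l := by
  obtain ⟨c, hc⟩ := exists_expansion hm hle h2
  refine ⟨c, hc, fun c' hc' => ?_⟩
  have := expansion_unique (fun l => (c' l).map (Nat.castRingHom ℤ) - (c l).map (Nat.castRingHom ℤ)) (by
    simp only [map_sub, sub_mul, Finset.sum_sub_distrib, ← hc n, ← hc' n, sub_self])
  funext l
  exact Polynomial.map_injective _ Nat.cast_injective (sub_eq_zero.1 (congrFun this l))

end Vale.Agent.P066
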