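import Vale.Agent.P066.Omega

/-!
Hikita's transition process, in backward form.  A graph is encoded by a word in `A` (add a
vertex) and `D` (drop the oldest open vertex); `V w O` is the value of the word `w` when the
open vertices sit in the columns listed in `O` (oldest first).
-/

namespace Vale.Agent.P066

open MvPolynomial

abbrev L := MvPolynomial ℕ K

inductive Op
  | A
  | D

noncomputable def em (m : ℕ) : L := C (qn m) * X m

noncomputable def eps (x : ℕ) (R : List ℕ) : L := if x + 1 ∈ R then 1 else em (x + 1)

def cand (O : List ℕ) : Finset ℕ := insert 0 ((O.map (· + 1)).toFinset)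

noncomputable def W (z : ℕ) (O : List ℕ) : K := (O.map fun c : ℕ => om ((z : ℤ) - (c : ℤ))).prod

noncomputable def wt (z : ℕ) (O : List ℕ) : K := if z ∈ cand O then W z O else 0

noncomputable def V : List Op → List ℕ → L
  | [], _ => 1
  | Op.D :: _, [] => 0
  | Op.D :: w, x :: R => eps x R * V w R
  | Op.A :: w, O => ∑ z ∈ cand O, C (W z O) * V w (O ++ [z])

@[simp] theorem V_nil (O : List ℕ) : V [] O = 1 := by rw [V]
@[simp] theorem V_D_nil (w : List Op) : V (Op.D :: w) [] = 0 := by rw [V]
theorem V_D (w : List Op) (x : ℕ) (R : List ℕ) :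
    V (Op.D :: w) (x :: R) = eps x R * V w R := by rw [V]

theorem mem_cand {z : ℕ} {O : List ℕ} : z ∈ cand O ↔ z = 0 ∨ ∃ c ∈ O, c + 1 = z := by
  simp [cand]

theorem W_zero_of_mem {z : ℕ} {O : List ℕ} (h : z ∈ O) : W z O = 0 := by
  rw [W, List.prod_eq_zero_iff]
  exact List.mem_map.2 ⟨z, h, by simp⟩

theorem wt_of_mem {z : ℕ} {O : List ℕ} (h : z ∈ O) : wt z O = 0 := by
  simp [wt, W_zero_of_mem h]

theorem wt_succ_of_not_mem {v : ℕ} {O : List ℕ} (h : v ∉ O) : wt (v + 1) O = 0 := by
  rw [wt, if_neg]
  rw [mem_cand]; push Not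
  exact ⟨by omega, fun c hc e => h (by rwa [show v = c by omega])⟩

theorem cand_perm {O O' : List ℕ} (h : O.Perm O') : cand O = cand O' := by
  ext z; simp [mem_cand, h.mem_iff]

theorem W_perm {O O' : List ℕ} (h : O.Perm O') (z : ℕ) : W z O = W z O' :=
  (h.map _).prod_eq

theorem wt_perm {O O' : List ℕ} (h : O.Perm O') (z : ℕ) : wt z O = wt z O' := by
  simp [wt, cand_perm h, W_perm h]

theorem W_cons (z v : ℕ) (O : List ℕ) : W z (v :: O) = om ((z : ℤ) - v) * W z O := by
  simp [W]

theorem wt_cons (z v : ℕ) (O : List ℕ) :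
    wt z (v :: O) = if z = v + 1 then W z O else om ((z : ℤ) - v) * wt z O := by
  by_cases h : z = v + 1
  · subst h
    rw [if_pos rfl, wt, if_pos (mem_cand.2 (Or.inr ⟨v, List.mem_cons_self .., rfl⟩)), W_cons]
    simp
  · rw [if_neg h]
    have hm : z ∈ cand (v :: O) ↔ z ∈ cand O := by
      simp only [mem_cand, List.mem_cons, exists_eq_or_imp]
      constructor
      · rintro (h0 | h1 | h2)
        exacts [Or.inl h0, absurd h1.symm h, Or.inr h2]
      · rintro (h0 | h2)
        exacts [Or.inl h0, Or.inr (Or.inr h2)]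
    by_cases hz : z ∈ cand O
    · simp [wt, hm, hz, W_cons]
    · simp [wt, hm, hz]

theorem wt_snoc (z v : ℕ) (O : List ℕ) :
    wt z (O ++ [v]) = if z = v + 1 then W z O else om ((z : ℤ) - v) * wt z O := by
  rw [wt_perm (List.perm_append_singleton v O), wt_cons]

theorem V_A {O : List ℕ} {S : Finset ℕ} (w : List Op) (hS : cand O ⊆ S) :
    V (Op.A :: w) O = ∑ z ∈ S, C (wt z O) * V w (O ++ [z]) := by
  rw [V]
  refine Finset.sum_subset_zero_on_sdiff hS ?_ ?_
  · intro z hz
    simp [wt, (Finset.mem_sdiff.1 hz).2]
  · intro z hz; simp [wt, hz]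

def bnd (O : List ℕ) : ℕ := O.sum + 2

theorem cand_subset_range {O : List ℕ} {M : ℕ} (h : bnd O ≤ M) : cand O ⊆ Finset.range M := by
  intro z hz
  rw [Finset.mem_range]
  rcases mem_cand.1 hz with h0 | ⟨c, hc, e⟩
  · unfold bnd at h; omega
  · have := List.le_sum_of_mem hc
    unfold bnd at h; omega

/-- Summing an antisymmetrisable double sum. -/
theorem pair_sum_zero (S : Finset ℕ) (g : ℕ → ℕ → L)
    (h : ∀ a b, g a b + g b a = 0) : ∑ a ∈ S, ∑ b ∈ S, g a b = 0 := by
  have h2 : (2 : L) * ∑ a ∈ S, ∑ b ∈ S, g a b = 0 := by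
    rw [two_mul]
    nth_rewrite 2 [Finset.sum_comm]
    simp [← Finset.sum_add_distrib, h]
  exact (mul_eq_zero.1 h2).resolve_left two_ne_zero

/-- The word does not separate the open vertices in positions `i`, `i+1`, and drops both. -/
def Tw : ℕ → List Op → Prop
  | _, [] => False
  | i, Op.A :: w => Tw i w
  | i + 1, Op.D :: w => Tw i w
  | 0, Op.D :: Op.D :: _ => True
  | 0, Op.D :: _ => False

noncomputable def et (a b : ℕ) : L := if b = a + 1 then em (a + 1) else 1

theorem nodup_insert_mid {z : ℕ} {O : List ℕ} (h : O.Nodup) (hz : z ∉ O) :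
    (O ++ [z]).Nodup :=
  List.nodup_append.2 ⟨h, List.nodup_singleton z, by simpa using fun a ha (e : a = z) => hz (e ▸ ha)⟩

theorem perm_mid (P Q : List ℕ) (a b : ℕ) : (P ++ a :: b :: Q).Perm (P ++ b :: a :: Q) :=
  List.Perm.append_left P (List.Perm.swap b a Q)

theorem V_swap : ∀ (w : List Op) (i : ℕ) (P Q : List ℕ) (a b : ℕ), P.length = i →
    (P ++ a :: b :: Q).Nodup → Tw i w →
    V w (P ++ a :: b :: Q) * et a b = V w (P ++ b :: a :: Q) * et b a := by
  intro w
  induction w with
  | nil => intro i P Q a b _ _ h; simp [Tw] at h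
  | cons o w ih =>
    intro i P Q a b hP hnd htw
    cases o with
    | A =>
      have hp := perm_mid P Q a b
      rw [V, V, ← cand_perm hp, Finset.sum_mul, Finset.sum_mul]
      refine Finset.sum_congr rfl fun z _ => ?_
      rw [← W_perm hp]
      by_cases hz : z ∈ P ++ a :: b :: Q
      · simp [W_zero_of_mem hz]
      · have hnd' := nodup_insert_mid hnd hz
        simp only [List.append_assoc, List.cons_append] at hnd' ⊢
        have := ih i P (Q ++ [z]) a b hP hnd' (by cases i <;> simpa [Tw] using htw)
        linear_combination (C (W z (P ++ a :: b :: Q))) * this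
    | D =>
      cases P with
      | cons x P' =>
        subst hP
        simp only [List.cons_append, List.length_cons] at *
        rw [V_D, V_D]
        have he : eps x (P' ++ a :: b :: Q) = eps x (P' ++ b :: a :: Q) := by
          simp only [eps, (perm_mid P' Q a b).mem_iff]
        have := ih P'.length P' Q a b rfl (List.nodup_cons.1 hnd).2 (by simpa [Tw] using htw)
        rw [he]
        linear_combination (eps x (P' ++ b :: a :: Q)) * this
      | nil =>
        subst hP
        cases w with
        | nil => simp [Tw] at htw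
        | cons o' w' =>
          cases o' with
          | A => simp [Tw] at htw
          | D =>
            simp only [List.nil_append, List.nodup_cons, List.mem_cons, not_or] at hnd
            obtain ⟨⟨hab, haQ⟩, hbQ, _⟩ := hnd
            rw [List.nil_append, List.nil_append, V_D, V_D, V_D, V_D]
            by_cases h1 : b = a + 1
            · subst h1
              simp [eps, et, hbQ, show ¬ a + 1 + 1 = a by omega, show ¬ a = a + 1 + 1 by omega]
              ring
            · by_cases h2 : a = b + 1
              · subst h2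
                simp [eps, et, haQ, show ¬ b + 1 + 1 = b by omega, show ¬ b = b + 1 + 1 by omega]
                ring
              · simp [eps, et, h1, h2, Ne.symm h1, Ne.symm h2]
                split_ifs <;> ring

end Vale.Agent.P066
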