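import Vale.Agent.P066.Hik

/-!
The two modular laws for Hikita's values, as identities between words.
-/

namespace Vale.Agent.P066

open MvPolynomial

theorem wt_self (a : ℕ) (O : List ℕ) : wt a (O ++ [a]) = 0 :=
  wt_of_mem (by simp)

theorem wt_eq_W_or_zero (z : ℕ) (O : List ℕ) : wt z O = 0 ∨ wt z O = W z O := by
  unfold wt; split_ifs <;> simp

section TypeI

variable (v : ℕ) (O : List ℕ)

noncomputable def c1 (a b : ℕ) : L :=
  C (wt a (v :: O)) * eps v (O ++ [a]) * C (wt b (O ++ [a]))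

noncomputable def c0 (a b : ℕ) : L :=
  eps v O * C (wt a O) * C (wt b (O ++ [a]))

noncomputable def c2 (a b : ℕ) : L :=
  C (wt a (v :: O)) * C (wt b ((v :: O) ++ [a])) * eps v (O ++ [a] ++ [b])

noncomputable def cc (a b : ℕ) : L :=
  C (1 + q) * c1 v O a b - C q * c0 v O a b - c2 v O a b

theorem cc_self (a : ℕ) : cc v O a a = 0 := by
  simp only [cc, c1, c0, c2, wt_self, map_zero, mul_zero, zero_mul, sub_zero]

theorem cc_left_mem {a b : ℕ} (h : a ∈ O) : cc v O a b = 0 := by
  have h' : a ∈ v :: O := List.mem_cons_of_mem _ h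
  simp [cc, c1, c0, c2, wt_of_mem h, wt_of_mem h']

theorem cc_right_mem {a b : ℕ} (h : b ∈ O) : cc v O a b = 0 := by
  have h1 : b ∈ O ++ [a] := List.mem_append_left _ h
  have h2 : b ∈ (v :: O) ++ [a] := by simp [h]
  simp only [cc, c1, c0, c2, wt_of_mem h1, wt_of_mem h2, map_zero, mul_zero, zero_mul, sub_zero]

/-- adjacent columns -/
theorem cc_adj {a : ℕ} (hv : v ∉ O) (ha : a ∉ O) (hb : a + 1 ∉ O) :
    cc v O a (a + 1) + cc v O (a + 1) a * em (a + 1) = 0 := by
  have hbO : wt (a + 1) O = 0 := wt_succ_of_not_mem ha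
  have n1 : ¬ a + 1 = a := by omega
  have n2 : ¬ a = a + 1 + 1 := by omega
  have hom : om (((a + 1 : ℕ) : ℤ) - (a : ℤ)) = 1 := by
    rw [show ((a + 1 : ℕ) : ℤ) - (a : ℤ) = 1 by omega, om_one]
  have hom' : om ((a : ℤ) - ((a + 1 : ℕ) : ℤ)) = q / (1 + q) := by
    rw [show (a : ℤ) - ((a + 1 : ℕ) : ℤ) = -1 by omega, om_neg_one]
  by_cases h1 : a = v
  · subst h1
    simp [cc, c1, c0, c2, wt_cons, wt_snoc, hbO, n2, wt_of_mem, om_neg_one, eps, hb]
    have hC : C (1 + q) * (C (q / (1 + q)) : L) = C q := by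
      rw [← map_mul, mul_div_cancel₀ _ qn_two_ne]
    have hC' : ((1 : L) + C q) * C (q / (1 + q)) = C q := by simpa using hC
    linear_combination (em (a + 1) * C (W (a + 1) O) * C (wt a O)) * hC'
  · have hb' : ¬ a + 1 = v + 1 := by omega
    have hA : wt (a + 1) (v :: O) = 0 := by rw [wt_cons, if_neg hb', hbO, mul_zero]
    by_cases h2 : a = v + 1
    · subst h2
      have h0 : wt (v + 1) O = 0 := wt_succ_of_not_mem hv
      simp [cc, c1, c0, c2, wt_cons, wt_snoc, hbO, h0, eps]
      rw [show (((v : ℤ) + 1 + 1) - (v : ℤ)) = 2 by ring, om_two]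
      simp
      ring
    · have e1 : eps v (O ++ [a]) = eps v O := by
        simp [eps, Ne.symm h2]
      have e2 : eps v (O ++ [a] ++ [a + 1]) = eps v O := by
        simp [eps, Ne.symm h2, show ¬ v = a by omega]
      have hB : wt (a + 1) ((v :: O) ++ [a]) = om (((a + 1 : ℕ) : ℤ) - (v : ℤ)) * W (a + 1) O := by
        rw [wt_snoc, if_pos rfl, W_cons]
      have hI := I1 (D := (a : ℤ) - (v : ℤ)) (by omega) (by omega)
      rw [show ((a + 1 : ℕ) : ℤ) - (v : ℤ) = (a : ℤ) - (v : ℤ) + 1 by omega] at hB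
      have hI' := congrArg (fun x : K => (C x : L)) hI
      simp only [map_mul, map_add, map_one] at hI'
      simp only [cc, c1, c0, c2, hA, hbO, e1, e2, hB]
      simp [wt_cons, wt_snoc, h2]
      linear_combination (eps v O * C (wt a O) * C (W (a + 1) O)) * hI'

/-- non-adjacent columns -/
theorem cc_far {a b : ℕ} (hv : v ∉ O) (ha : a ∉ O) (hb : b ∉ O) (hab : a ≠ b)
    (h1 : b ≠ a + 1) (h2 : a ≠ b + 1) (hbv : b ≠ v + 1) :
    cc v O a b + cc v O b a = 0 := by
  have w1 : wt b (O ++ [a]) = om ((b : ℤ) - a) * wt b O := by rw [wt_snoc, if_neg h1]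
  have w2 : wt a (O ++ [b]) = om ((a : ℤ) - b) * wt a O := by rw [wt_snoc, if_neg h2]
  have u1 : wt b ((v :: O) ++ [a]) = om ((b : ℤ) - a) * (om ((b : ℤ) - v) * wt b O) := by
    rw [wt_snoc, if_neg h1, wt_cons, if_neg hbv]
  have u2 : wt b (v :: O) = om ((b : ℤ) - v) * wt b O := by rw [wt_cons, if_neg hbv]
  by_cases h3 : a = v + 1
  · subst h3
    have h0 : wt (v + 1) O = 0 := wt_succ_of_not_mem hv
    have t1 : wt (v + 1) (v :: O) = W (v + 1) O := by rw [wt_cons, if_pos rfl]
    have t2 : wt (v + 1) ((v :: O) ++ [b]) =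
        om (((v + 1 : ℕ) : ℤ) - b) * W (v + 1) O := by
      rw [wt_snoc, if_neg h2, wt_cons, if_pos rfl]
    have hI := I2 (d := (b : ℤ) - ((v + 1 : ℕ) : ℤ)) (by omega) (by omega) (by omega)
    rw [show (b : ℤ) - ((v + 1 : ℕ) : ℤ) + 1 = (b : ℤ) - v by omega, neg_sub] at hI
    have hI' := congrArg (fun x : K => (C x : L)) hI
    simp only [map_mul, map_add, map_one] at hI'
    simp only [cc, c1, c0, c2, w1, w2, u1, u2, h0, t1, t2]
    simp [eps]
    push_cast at hI' ⊢
    linear_combination (C (wt b O) * C (W (v + 1) O)) * hI'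
  · have e0 : ∀ x y : ℕ, x ≠ v + 1 → y ≠ v + 1 →
        eps v (O ++ [x]) = eps v O ∧ eps v (O ++ [x] ++ [y]) = eps v O := by
      intro x y hx hy
      simp [eps, Ne.symm hx, Ne.symm hy]
    obtain ⟨e1, e2⟩ := e0 a b h3 hbv
    obtain ⟨e3, e4⟩ := e0 b a hbv h3
    have u3 : wt a ((v :: O) ++ [b]) = om ((a : ℤ) - b) * (om ((a : ℤ) - v) * wt a O) := by
      rw [wt_snoc, if_neg h2, wt_cons, if_neg h3]
    have u4 : wt a (v :: O) = om ((a : ℤ) - v) * wt a O := by rw [wt_cons, if_neg h3]
    have hI := I3 (d := (b : ℤ) - a) (A := (a : ℤ) - v) (B := (b : ℤ) - v) (by omega) (by omega)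
      (by omega) (by omega) (by omega) (by omega)
    rw [neg_sub] at hI
    have hI' := congrArg (fun x : K => (C x : L)) hI
    simp only [map_mul, map_add, map_one] at hI'
    simp only [cc, c1, c0, c2, w1, w2, u1, u2, u3, u4, e1, e2, e3, e4, map_mul, map_add, map_one]
    linear_combination (eps v O * C (wt a O) * C (wt b O)) * hI'

end TypeI

theorem typeI (w : List Op) (v : ℕ) (O : List ℕ) (hnd : (v :: O).Nodup) (htw : Tw O.length w) :
    C (1 + q) * V (Op.A :: Op.D :: Op.A :: w) (v :: O) =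
      C q * V (Op.D :: Op.A :: Op.A :: w) (v :: O) +
        V (Op.A :: Op.A :: Op.D :: w) (v :: O) := by
  obtain ⟨hv, hO⟩ := List.nodup_cons.1 hnd
  set S := Finset.range (O.sum + v + 4 + (O.sum + v + 4)) with hS
  have hs1 : cand (v :: O) ⊆ S := cand_subset_range (by simp [bnd]; omega)
  have hs0 : cand O ⊆ S := cand_subset_range (by simp [bnd]; omega)
  have key : ∀ (O' : List ℕ), cand O' ⊆ Finset.range (O.sum + v + 4) → ∀ a ∈ S,
      wt a O' ≠ 0 → a < O.sum + v + 4 := by
    intro O' h a _ hne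
    have : a ∈ cand O' := by
      by_contra hc; exact hne (by simp [wt, hc])
    exact Finset.mem_range.1 (h this)
  have small1 : cand (v :: O) ⊆ Finset.range (O.sum + v + 4) :=
    cand_subset_range (by simp [bnd]; omega)
  have small0 : cand O ⊆ Finset.range (O.sum + v + 4) := cand_subset_range (by simp [bnd]; omega)
  let F : ℕ → ℕ → L := fun a b => V w (O ++ [a] ++ [b])
  have e1 : V (Op.A :: Op.D :: Op.A :: w) (v :: O) = ∑ a ∈ S, ∑ b ∈ S, c1 v O a b * F a b := by
    rw [V_A _ hs1]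
    refine Finset.sum_congr rfl fun a ha => ?_
    by_cases h : wt a (v :: O) = 0
    · simp [h, c1]
    · have hlt := key _ small1 a ha h
      rw [List.cons_append, V_D, V_A _ (cand_subset_range (O := O ++ [a]) (M := O.sum + v + 4 + (O.sum + v + 4))
        (by simp [bnd]; omega)), Finset.mul_sum, Finset.mul_sum]
      exact Finset.sum_congr rfl fun b _ => by simp only [c1, F]; ring
  have e0 : V (Op.D :: Op.A :: Op.A :: w) (v :: O) = ∑ a ∈ S, ∑ b ∈ S, c0 v O a b * F a b := by
    rw [V_D, V_A _ hs0, Finset.mul_sum]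
    refine Finset.sum_congr rfl fun a ha => ?_
    by_cases h : wt a O = 0
    · simp [h, c0]
    · have hlt := key _ small0 a ha h
      rw [V_A _ (cand_subset_range (O := O ++ [a]) (M := O.sum + v + 4 + (O.sum + v + 4))
        (by simp [bnd]; omega)), Finset.mul_sum, Finset.mul_sum]
      exact Finset.sum_congr rfl fun b _ => by simp only [c0, F]; ring
  have e2 : V (Op.A :: Op.A :: Op.D :: w) (v :: O) = ∑ a ∈ S, ∑ b ∈ S, c2 v O a b * F a b := by
    rw [V_A _ hs1]
    refine Finset.sum_congr rfl fun a ha => ?_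
    by_cases h : wt a (v :: O) = 0
    · simp [h, c2]
    · have hlt := key _ small1 a ha h
      rw [V_A _ (cand_subset_range (O := (v :: O) ++ [a]) (M := O.sum + v + 4 + (O.sum + v + 4))
        (by simp [bnd]; omega)), Finset.mul_sum]
      refine Finset.sum_congr rfl fun b _ => ?_
      simp only [List.cons_append]
      rw [V_D]
      simp only [c2, F, List.cons_append]; ring
  rw [e1, e0, e2, Finset.mul_sum, Finset.mul_sum, ← Finset.sum_add_distrib, ← sub_eq_zero,
    ← Finset.sum_sub_distrib]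
  simp only [Finset.mul_sum, ← Finset.sum_add_distrib, ← Finset.sum_sub_distrib]
  refine (Finset.sum_congr rfl fun a _ => Finset.sum_congr rfl fun b _ => ?_).trans
    (pair_sum_zero S (fun a b => cc v O a b * F a b) ?_)
  · simp only [cc]; ring
  intro a b
  by_cases hab : a = b
  · subst hab; simp [cc_self]
  by_cases ha : a ∈ O
  · simp [cc_left_mem v O ha, cc_right_mem v O ha]
  by_cases hb : b ∈ O
  · simp [cc_left_mem v O hb, cc_right_mem v O hb]
  have hnd2 : ∀ x y, x ∉ O → y ∉ O → x ≠ y → (O ++ [x] ++ [y]).Nodup := fun x y hx hy hxy =>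
    nodup_insert_mid (nodup_insert_mid hO hx) (by simp [hy, Ne.symm hxy])
  have sw : ∀ x y, x ∉ O → y ∉ O → x ≠ y → F x y * et x y = F y x * et y x := by
    intro x y hx hy hxy
    have := V_swap w O.length O [] x y rfl (by simpa using hnd2 x y hx hy hxy) htw
    simpa [F] using this
  have adj : ∀ x, x ∉ O → x + 1 ∉ O →
      cc v O x (x + 1) * F x (x + 1) + cc v O (x + 1) x * F (x + 1) x = 0 := by
    intro x hx hy
    have h := sw x (x + 1) hx hy (by omega)
    simp [et, show ¬ x = x + 1 + 1 by omega] at h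
    rw [← h]
    linear_combination F x (x + 1) * cc_adj v O hv hx hy
  by_cases h1 : b = a + 1
  · subst h1; exact adj a ha hb
  by_cases h2 : a = b + 1
  · subst h2; rw [add_comm]; exact adj b hb ha
  have hF : F a b = F b a := by
    have h := sw a b ha hb hab
    simpa [et, h1, h2] using h
  rw [← hF, ← add_mul]
  by_cases hbv : b = v + 1
  · have := cc_far v O hv hb ha (Ne.symm hab) h2 h1 (by omega)
    rw [add_comm] at this; simp [this]
  · simp [cc_far v O hv ha hb hab h1 h2 hbv]

end Vale.Agent.P066
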