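import Vale.Agent.P066.HikMod

/-!
The second modular law: twins below the varied vertex.
-/

namespace Vale.Agent.P066

open MvPolynomial

noncomputable def rho (a b : ℕ) : K := om ((b : ℤ) - a + 1)

/-- `F` kills the twin vector in positions `i`, `i+1`. -/
def Anti (i : ℕ) (F : List ℕ → L) : Prop :=
  ∀ (P Q : List ℕ) (a b : ℕ), P.length = i → (P ++ a :: b :: Q).Nodup →
    C (rho a b) * F (P ++ a :: b :: Q) + C (rho b a) * F (P ++ b :: a :: Q) = 0

noncomputable def Z (M w : List Op) (O : List ℕ) : L :=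
  C (1 + q) * V (M ++ Op.D :: Op.A :: Op.D :: w) O -
    C q * V (M ++ Op.D :: Op.D :: Op.A :: w) O - V (M ++ Op.A :: Op.D :: Op.D :: w) O

def countD : List Op → ℕ
  | [] => 0
  | Op.A :: w => countD w
  | Op.D :: w => countD w + 1

theorem anti_base (w : List Op) : Anti 0 (Z [] w) := by
  intro P Q a b hP hnd
  obtain rfl := List.length_eq_zero_iff.1 hP
  simp only [List.nil_append, List.nodup_cons, List.mem_cons, not_or] at hnd
  obtain ⟨⟨hab, haQ⟩, hbQ, _⟩ := hnd
  set S := Finset.range (a + b + Q.sum + 5) with hS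
  have sub : ∀ O : List ℕ, bnd O ≤ a + b + Q.sum + 5 → cand O ⊆ S := fun O h =>
    cand_subset_range h
  have ex : ∀ a b : ℕ, bnd (a :: b :: Q) ≤ Finset.card S → Z [] w (a :: b :: Q) =
      ∑ z ∈ S, (C (1 + q) * (eps a (b :: Q) * (C (wt z (b :: Q)) * eps b (Q ++ [z]))) -
        C q * (eps a (b :: Q) * eps b Q * C (wt z Q)) -
        C (wt z (a :: b :: Q)) * eps a (b :: (Q ++ [z])) * eps b (Q ++ [z])) * V w (Q ++ [z]) := by
    intro a b h
    rw [hS, Finset.card_range] at h
    simp only [Z, List.nil_append]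
    rw [V_D, V_D, V_D, V_A _ (sub (b :: Q) (by simp [bnd] at h ⊢; omega)),
      V_A _ (sub Q (by simp [bnd] at h ⊢; omega)), V_A _ (sub (a :: b :: Q) h)]
    simp only [Finset.mul_sum, ← Finset.sum_sub_distrib]
    refine Finset.sum_congr rfl fun z _ => ?_
    simp only [List.cons_append, V_D]
    ring
  rw [List.nil_append, List.nil_append,
    ex a b (by simp [bnd, hS]; omega), ex b a (by simp [bnd, hS]; omega),
    Finset.mul_sum, Finset.mul_sum, ← Finset.sum_add_distrib]
  refine Finset.sum_eq_zero fun z _ => ?_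
  rw [← mul_assoc (C (rho a b)), ← mul_assoc (C (rho b a)), ← add_mul]
  apply mul_eq_zero_of_left
  -- the adjacent case, stated for `b = a + 1`
  have adj : ∀ a : ℕ, a ∉ Q → a + 1 ∉ Q →
      C (rho a (a + 1)) *
        (C (1 + q) * (eps a ((a + 1) :: Q) * (C (wt z ((a + 1) :: Q)) * eps (a + 1) (Q ++ [z]))) -
          C q * (eps a ((a + 1) :: Q) * eps (a + 1) Q * C (wt z Q)) -
          C (wt z (a :: (a + 1) :: Q)) * eps a ((a + 1) :: (Q ++ [z])) * eps (a + 1) (Q ++ [z])) +
      C (rho (a + 1) a) *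
        (C (1 + q) * (eps (a + 1) (a :: Q) * (C (wt z (a :: Q)) * eps a (Q ++ [z]))) -
          C q * (eps (a + 1) (a :: Q) * eps a Q * C (wt z Q)) -
          C (wt z ((a + 1) :: a :: Q)) * eps (a + 1) (a :: (Q ++ [z])) * eps a (Q ++ [z])) = 0 := by
    intro a ha hb
    have r2 : rho (a + 1) a = 0 := by
      rw [rho, show (a : ℤ) - ((a + 1 : ℕ) : ℤ) + 1 = 0 by omega, om_zero]
    rw [r2, map_zero, zero_mul, add_zero]
    apply mul_eq_zero_of_right
    have e1 : eps a ((a + 1) :: Q) = 1 := by simp [eps]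
    have e2 : eps a ((a + 1) :: (Q ++ [z])) = 1 := by simp [eps]
    rw [e1, e2]
    by_cases hz : z = a + 1 + 1
    · subst hz
      have h0 : wt (a + 1 + 1) Q = 0 := wt_succ_of_not_mem hb
      simp [wt_cons, h0, W_cons, eps]
      rw [show ((a : ℤ) + 1 + 1 - a) = 2 by ring, om_two]
      simp
    · by_cases hz0 : z = a + 1
      · subst hz0
        simp [wt_cons, wt_of_mem, W_cons, wt_succ_of_not_mem ha]
      · have ee : eps (a + 1) (Q ++ [z]) = eps (a + 1) Q := by simp [eps, Ne.symm hz]
        have hI := I1 (D := (z : ℤ) - ((a + 1 : ℕ) : ℤ)) (by omega) (by omega)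
        rw [show (z : ℤ) - ((a + 1 : ℕ) : ℤ) + 1 = (z : ℤ) - a by omega] at hI
        have hI' := congrArg (fun x : K => (C x : L)) hI
        simp only [map_mul, map_add, map_one] at hI'
        simp [wt_cons, hz, hz0, ee]
        push_cast at hI' ⊢
        linear_combination (eps (a + 1) Q * C (wt z Q)) * hI'
  by_cases h1 : b = a + 1
  · subst h1; exact adj a haQ hbQ
  by_cases h2 : a = b + 1
  · subst h2; rw [add_comm]; exact adj b hbQ haQ
  have e1 : eps a (b :: Q) = eps a Q := by simp [eps, Ne.symm h1]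
  have e2 : eps b (a :: Q) = eps b Q := by simp [eps, Ne.symm h2]
  have top : ∀ a b : ℕ, a ∉ Q → b ∉ Q → a ≠ b → b ≠ a + 1 → a ≠ b + 1 → z = b + 1 →
      C (rho a b) *
        (C (1 + q) * (eps a (b :: Q) * (C (wt z (b :: Q)) * eps b (Q ++ [z]))) -
          C q * (eps a (b :: Q) * eps b Q * C (wt z Q)) -
          C (wt z (a :: b :: Q)) * eps a (b :: (Q ++ [z])) * eps b (Q ++ [z])) +
      C (rho b a) *
        (C (1 + q) * (eps b (a :: Q) * (C (wt z (a :: Q)) * eps a (Q ++ [z]))) -
          C q * (eps b (a :: Q) * eps a Q * C (wt z Q)) -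
          C (wt z (b :: a :: Q)) * eps b (a :: (Q ++ [z])) * eps a (Q ++ [z])) = 0 := by
    intro a b ha hb hab h1 h2 hz
    subst hz
    have h0 : wt (b + 1) Q = 0 := wt_succ_of_not_mem hb
    have hI := I4 (d := (b : ℤ) - a) (by omega)
    rw [show 1 - ((b : ℤ) - a) = (a : ℤ) - b + 1 by ring] at hI
    have hI' := congrArg (fun x : K => (C x : L)) hI
    simp only [map_add, map_one] at hI'
    simp [wt_cons, h0, W_cons, eps, rho, Ne.symm h1, Ne.symm h2, Ne.symm hab,
      show ¬ a = b by exact hab]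
    rw [show (b : ℤ) + 1 - a = (b : ℤ) - a + 1 by ring]
    split_ifs
    · linear_combination (-(C (om ((b : ℤ) - a + 1))) * C (W (b + 1) Q)) * hI'
    · linear_combination (-(C (om ((b : ℤ) - a + 1))) * C (W (b + 1) Q) * em (a + 1)) * hI'
  by_cases hzb : z = b + 1
  · exact top a b haQ hbQ hab h1 h2 hzb
  by_cases hza : z = a + 1
  · rw [add_comm]; exact top b a hbQ haQ (Ne.symm hab) h2 h1 hza
  have f1 : eps a (b :: (Q ++ [z])) = eps a Q := by simp [eps, Ne.symm h1, Ne.symm hza]
  have f2 : eps b (a :: (Q ++ [z])) = eps b Q := by simp [eps, Ne.symm h2, Ne.symm hzb]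
  have f3 : eps a (Q ++ [z]) = eps a Q := by simp [eps, Ne.symm hza]
  have f4 : eps b (Q ++ [z]) = eps b Q := by simp [eps, Ne.symm hzb]
  have hI := I5 (d := (b : ℤ) - a) (A := (z : ℤ) - a) (B := (z : ℤ) - b) (by omega) (by omega)
    (by omega) (by omega)
  rw [show 1 - ((b : ℤ) - a) = (a : ℤ) - b + 1 by ring] at hI
  have h4 := I4 (d := (b : ℤ) - a) (by omega)
  rw [show 1 - ((b : ℤ) - a) = (a : ℤ) - b + 1 by ring] at h4
  have hI' := congrArg (fun x : K => (C x : L)) hI
  have h4' := congrArg (fun x : K => (C x : L)) h4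
  simp only [map_mul, map_add, map_one] at hI' h4'
  simp only [wt_cons, if_neg hzb, if_neg hza, e1, e2, f1, f2, f3, f4, rho, map_mul, map_add,
    map_one]
  linear_combination ((1 + C q) * eps a Q * eps b Q * C (wt z Q)) * hI' -
    (eps a Q * eps b Q * C (wt z Q) *
      (C q + C (om ((z : ℤ) - a)) * C (om ((z : ℤ) - b)))) * h4'

theorem anti_word (w : List Op) : ∀ M : List Op, Anti (countD M) (Z M w) := by
  intro M
  induction M with
  | nil => exact anti_base w
  | cons o M ih =>
    intro P Q a b hP hnd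
    cases o with
    | A =>
      have hp := perm_mid P Q a b
      simp only [Z, List.cons_append]
      rw [V, V, V, V, V, V, ← cand_perm hp]
      simp only [Finset.mul_sum, ← Finset.sum_sub_distrib, ← Finset.sum_add_distrib]
      refine Finset.sum_eq_zero fun z _ => ?_
      rw [← W_perm hp]
      by_cases hz : z ∈ P ++ a :: b :: Q
      · simp [W_zero_of_mem hz]
      · have hnd' := nodup_insert_mid hnd hz
        simp only [List.append_assoc, List.cons_append] at hnd' ⊢
        have := ih P (Q ++ [z]) a b hP hnd'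
        simp only [Z] at this
        linear_combination (C (W z (P ++ a :: b :: Q))) * this
    | D =>
      cases P with
      | nil => simp [countD] at hP
      | cons x P' =>
        have he : eps x (P' ++ a :: b :: Q) = eps x (P' ++ b :: a :: Q) := by
          simp only [eps, (perm_mid P' Q a b).mem_iff]
        simp only [List.cons_append] at hnd
        simp only [Z, List.cons_append, V_D]
        have := ih P' Q a b (by simpa [countD] using hP) (List.nodup_cons.1 hnd).2
        simp only [Z] at this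
        rw [← he]
        linear_combination (eps x (P' ++ a :: b :: Q)) * this

theorem om_ne_zero {D : ℤ} (h : D ≠ 0) : om D ≠ 0 := by
  unfold om
  split_ifs with h1
  · exact one_ne_zero
  · exact div_ne_zero (qpow_sub_one_ne h) (qpow_sub_one_ne (by omega))

/-- Creating two twins annihilates anything killing the twin vector. -/
theorem anti_kill (F : List ℕ → L) (O : List ℕ) (hO : O.Nodup) (hF : Anti O.length F)
    (S : Finset ℕ) :
    ∑ a ∈ S, ∑ b ∈ S, C (wt a O) * C (wt b (O ++ [a])) * F (O ++ [a] ++ [b]) = 0 := by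
  apply pair_sum_zero
  intro a b
  by_cases hab : a = b
  · subst hab; simp [wt_self]
  by_cases ha : a ∈ O
  · simp [wt_of_mem ha, wt_of_mem (show a ∈ O ++ [b] by simp [ha])]
  by_cases hb : b ∈ O
  · simp [wt_of_mem hb, wt_of_mem (show b ∈ O ++ [a] by simp [hb])]
  have rel : ∀ x y, x ∉ O → y ∉ O → x ≠ y →
      C (rho x y) * F (O ++ [x] ++ [y]) + C (rho y x) * F (O ++ [y] ++ [x]) = 0 := by
    intro x y hx hy hxy
    have h := hF O [] x y rfl (by
      simpa using nodup_insert_mid (nodup_insert_mid hO hx) (show y ∉ O ++ [x] by simp [hy, Ne.symm hxy]))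
    simpa using h
  have adj : ∀ x, x ∉ O → x + 1 ∉ O →
      C (wt x O) * C (wt (x + 1) (O ++ [x])) * F (O ++ [x] ++ [x + 1]) +
        C (wt (x + 1) O) * C (wt x (O ++ [x + 1])) * F (O ++ [x + 1] ++ [x]) = 0 := by
    intro x hx hy
    have h := rel x (x + 1) hx hy (by omega)
    have r1 : rho x (x + 1) = 1 + q := by
      rw [rho, show ((x + 1 : ℕ) : ℤ) - x + 1 = 2 by omega, om_two]
    have r2 : rho (x + 1) x = 0 := by
      rw [rho, show (x : ℤ) - ((x + 1 : ℕ) : ℤ) + 1 = 0 by omega, om_zero]
    rw [r1, r2, map_zero, zero_mul, add_zero] at h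
    have hF0 : F (O ++ [x] ++ [x + 1]) = 0 :=
      (mul_eq_zero.1 h).resolve_left (by simp only [ne_eq, C_eq_zero]; exact qn_two_ne)
    rw [hF0, wt_succ_of_not_mem hx]; simp
  by_cases h1 : b = a + 1
  · subst h1; exact adj a ha hb
  by_cases h2 : a = b + 1
  · subst h2; rw [add_comm]; exact adj b hb ha
  rw [wt_snoc, if_neg h1, wt_snoc, if_neg h2, map_mul, map_mul]
  have h := rel a b ha hb hab
  simp only [rho] at h
  have hI := I6 (d := (b : ℤ) - a) (by omega) (by omega) (by omega)
  rw [neg_sub, show 1 - ((b : ℤ) - a) = (a : ℤ) - b + 1 by ring] at hI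
  have hI' := congrArg (fun x : K => (C x : L)) hI
  simp only [map_mul] at hI'
  have hne : (C (om ((b : ℤ) - a + 1)) : L) ≠ 0 := by
    simp only [ne_eq, C_eq_zero]; exact om_ne_zero (by omega)
  apply (mul_eq_zero.1 (b := _) ?_).resolve_left hne
  linear_combination (C (wt a O) * C (wt b O) * C (om ((b : ℤ) - a))) * h -
    (C (wt a O) * C (wt b O) * F (O ++ [b] ++ [a])) * hI'

theorem typeII (M w : List Op) (O : List ℕ) (hO : O.Nodup) (hM : countD M = O.length) :
    C (1 + q) * V (Op.A :: Op.A :: (M ++ Op.D :: Op.A :: Op.D :: w)) O =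
      C q * V (Op.A :: Op.A :: (M ++ Op.D :: Op.D :: Op.A :: w)) O +
        V (Op.A :: Op.A :: (M ++ Op.A :: Op.D :: Op.D :: w)) O := by
  set N := O.sum + 4
  have hs : cand O ⊆ Finset.range N := cand_subset_range (by simp [bnd, N])
  have hs' : cand O ⊆ Finset.range (N + N) := cand_subset_range (by simp [bnd, N]; omega)
  have ex : ∀ u, V (Op.A :: Op.A :: u) O = ∑ a ∈ Finset.range (N + N), ∑ b ∈ Finset.range (N + N),
      C (wt a O) * C (wt b (O ++ [a])) * V u (O ++ [a] ++ [b]) := by
    intro u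
    rw [V_A _ hs']
    refine Finset.sum_congr rfl fun a _ => ?_
    by_cases h : wt a O = 0
    · simp [h]
    · have : a ∈ cand O := by by_contra hc; exact h (by simp [wt, hc])
      have := Finset.mem_range.1 (hs this)
      rw [V_A _ (cand_subset_range (O := O ++ [a]) (M := N + N) (by simp [bnd, N] at *; omega)),
        Finset.mul_sum]
      exact Finset.sum_congr rfl fun b _ => by ring
  rw [ex, ex, ex, ← sub_eq_zero]
  have := anti_kill (Z M w) O hO (hM ▸ anti_word w M) (Finset.range (N + N))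
  rw [← this]
  simp only [Z, Finset.mul_sum, ← Finset.sum_add_distrib, ← Finset.sum_sub_distrib]
  exact Finset.sum_congr rfl fun a _ => Finset.sum_congr rfl fun b _ => by ring

end Vale.Agent.P066
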