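import Vale.Agent.P066.Two

/-!
Assembly: every graph with at most two smaller neighbours at each vertex has a positive value.
-/

namespace Vale.Agent.P066

open MvPolynomial

def One (g : ℕ → ℕ) (c : ℕ) : Prop :=
  ∀ (v : ℕ) (P : ℕ → L) (M : ℕ), 0 < v → (∀ u u', v ≤ u → u ≤ u' → u' < v + c → g u ≤ g u') →
    (∀ u, v ≤ u → u < v + c → g u ≤ u ∧ u ≤ g u + 2) →
    (0 < c → v - 1 ≤ g v) → (∀ x, M ≤ x → P x = 0) → (∀ x, P x ∈ Pos) →
    ∑ y ∈ Finset.range M, P y * V (pr g c v (v - 1)) [y] ∈ Pos

def TwoP (g : ℕ → ℕ) (c : ℕ) : Prop :=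
  ∀ (v : ℕ) (P : ℕ → L) (M t B : ℕ), 2 ≤ v →
    (∀ u u', v ≤ u → u ≤ u' → u' < v + c → g u ≤ g u') →
    (∀ u, v ≤ u → u < v + c → g u ≤ u ∧ u ≤ g u + 2) →
    (0 < c → v - 2 ≤ g v) → (∀ x, M ≤ x → P x = 0) → (∀ x, P x ∈ Pos) → 0 < t → M + t + c ≤ B →
    ∑ x ∈ Finset.range B, ∑ y ∈ Finset.range B, vv P B t x y * V (pr g c v (v - 2)) [x, y] ∈ Pos

theorem two_of_one {g : ℕ → ℕ} {c : ℕ} (h1 : One g c) (h2 : ∀ c', c' < c → TwoP g c') :
    TwoP g c := by
  intro v P M t B hv hm hb hstart hP hpos ht hB
  by_cases hpop : 0 < c → v - 2 < g v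
  · have e : pr g c v (v - 2) = Op.D :: pr g c v (v - 1) := by
      rw [pr_pop g c v (v - 2) (by omega) hpop, show v - 2 + 1 = v - 1 by omega]
    rw [e, Finset.sum_comm]
    have e2 : ∀ y ∈ Finset.range B, (∑ x ∈ Finset.range B, vv P B t x y *
        V (Op.D :: pr g c v (v - 1)) [x, y]) =
        (if y < B then Pt P B t y else 0) * V (pr g c v (v - 1)) [y] := by
      intro y hy
      rw [if_pos (Finset.mem_range.1 hy), Pt, Finset.sum_mul]
      exact Finset.sum_congr rfl fun x _ => by rw [V_D]; ring
    rw [Finset.sum_congr rfl e2]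
    refine h1 v _ B (by omega) hm hb (fun hc => by have := hpop hc; omega)
      (fun x hx => if_neg (by omega)) (fun x => ?_)
    split_ifs with hx
    · obtain ⟨r, hr, he⟩ := (positive P B hP (T := t) (by omega) hpos t le_rfl).2 x hx
      rw [he]
      refine add_mem (mul_mem (C_mem (mul_mem (pow_mem q_mem _) (pow_mem two_mem _)))
        (sum_mem fun z _ => mul_mem (X_mem _) ?_)) hr
      split_ifs
      · have hW : ∀ (a : ℕ) (τ : ℤ), τ ≤ t → Wz P B τ a ∈ Pos := by
          intro a
          induction a with
          | zero => intro τ _; rw [Wz_zero]; exact zero_mem _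
          | succ a iha =>
            intro τ hτ
            rw [Wz_eq P B τ (Nat.succ_pos a)]
            refine add_mem (mul_mem (C_mem (qn_mem _)) ?_)
              (mul_mem (C_mem q_mem) (iha (τ - 1) (by omega)))
            rcases le_or_gt τ 0 with h | h
            · rw [de_nonpos P B h]; exact zero_mem _
            · obtain ⟨k, rfl⟩ : ∃ k : ℕ, τ = k := ⟨τ.toNat, by omega⟩
              exact (positive P B hP (T := t) (by omega) hpos k (by omega)).1 _
        exact hW _ _ (by omega)
      · exact zero_mem _
    · exact zero_mem _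
  · push Not at hpop
    obtain ⟨hc, hgv⟩ := hpop
    obtain ⟨c, rfl⟩ : ∃ k, c = k + 1 := ⟨c - 1, by omega⟩
    have hg : g v = v - 2 := by have := hstart hc; omega
    have e : pr g (c + 1) v (v - 2) = Op.A :: Op.D :: pr g c (v + 1) (v - 1) := by
      rw [pr, hg, Nat.sub_self, pr_pop g c (v + 1) (v - 2) (by omega) (fun h => by
        have := (hb (v + 1) (by omega) (by omega)).2
        omega), show v - 2 + 1 = v - 1 by omega]
      rfl
    rw [e]
    have step : ∀ x ∈ Finset.range B, ∀ y ∈ Finset.range B,
        vv P B t x y * V (Op.A :: Op.D :: pr g c (v + 1) (v - 1)) [x, y] =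
          ∑ z ∈ Finset.range B, vv P B t x y * (C (wt z [x, y]) * eps x [y, z]) *
            V (pr g c (v + 1) (v + 1 - 2)) [y, z] := by
      intro x _ y _
      by_cases hne : M + t ≤ x ∨ M + t ≤ y
      · simp [vv_support P B hP t x y hne]
      · have hs : cand [x, y] ⊆ Finset.range B := by
          intro z hz
          rw [mem_cand] at hz
          simp at hz
          rw [Finset.mem_range]; omega
        rw [V_A _ hs, Finset.mul_sum, show v + 1 - 2 = v - 1 by omega]
        refine Finset.sum_congr rfl fun z _ => ?_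
        rw [List.cons_append, V_D, List.cons_append, List.nil_append]
        ring
    rw [Finset.sum_congr rfl fun x hx => Finset.sum_congr rfl (step x hx), Finset.sum_comm,
      Finset.sum_congr rfl fun y _ => Finset.sum_comm]
    have := h2 c (by omega) (v + 1) P M (t + 1) B (by omega)
      (fun u u' a b e => hm u u' (by omega) b (by omega))
      (fun u a b => hb u (by omega) (by omega))
      (fun h => by have := (hb (v + 1) (by omega) (by omega)).2; omega) hP hpos (by omega) (by omega)
    obtain ⟨t, rfl⟩ : ∃ k, t = k + 1 := ⟨t - 1, by omega⟩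
    simp only [vv, Finset.sum_mul] at this
    exact this

theorem one_step {g : ℕ → ℕ} {c : ℕ} (h1 : ∀ c', c' < c → One g c')
    (h2 : ∀ c', c' < c → TwoP g c') : One g c := by
  intro v P M hv hm hb hstart hP hpos
  match c, h1, h2, hm, hb, hstart with
  | 0, _, _, _, _, _ =>
    refine sum_mem fun y _ => mul_mem (hpos y) ?_
    rw [pr, show v - (v - 1) = 1 by omega, show drops 1 = [Op.D] from rfl, V_D]
    exact mul_mem (eps_mem _ _) (by rw [V_nil]; exact one_mem _)
  | c + 1, h1, h2, hm, hb, hstart =>
    have hg1 := hstart (Nat.succ_pos c)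
    have hg2 := hb v le_rfl (by omega)
    have hnext : 0 < c → g v ≤ g (v + 1) := fun h => hm v (v + 1) le_rfl (by omega) (by omega)
    rcases Nat.lt_or_ge (g v) v with hlt | hge
    · have hgv : g v = v - 1 := by omega
      have e : pr g (c + 1) v (v - 1) = Op.A :: pr g c (v + 1) (v + 1 - 2) := by
        rw [pr, hgv, Nat.sub_self, show v + 1 - 2 = v - 1 by omega]; rfl
      rw [e]
      set B := M + 1 + c + 1 with hB
      have step : ∀ y ∈ Finset.range B, P y * V (Op.A :: pr g c (v + 1) (v + 1 - 2)) [y] =
          ∑ z ∈ Finset.range B, vv P B 1 y z * V (pr g c (v + 1) (v + 1 - 2)) [y, z] := by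
        intro y _
        by_cases hy : M ≤ y
        · simp [vv, hP y hy]
        · have hs : cand [y] ⊆ Finset.range B := by
            intro z hz
            rw [mem_cand] at hz; simp at hz
            rw [Finset.mem_range]; omega
          rw [V_A _ hs, Finset.mul_sum]
          exact Finset.sum_congr rfl fun z _ => by simp [vv, mul_assoc]
      rw [Finset.sum_subset (Finset.range_subset_range.2 (show M ≤ B by omega))
        (fun y _ hy => by rw [Finset.mem_range, not_lt] at hy; simp [hP y hy]),
        Finset.sum_congr rfl step]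
      exact h2 c (by omega) (v + 1) P M 1 B (by omega)
        (fun u u' a b e => hm u u' (by omega) b (by omega))
        (fun u a b => hb u (by omega) (by omega))
        (fun h => by have := hnext h; omega) hP hpos one_pos (by omega)
    · have hgv : g v = v := le_antisymm hg2.1 hge
      have e : pr g (c + 1) v (v - 1) = Op.D :: Op.A :: pr g c (v + 1) v := by
        rw [pr, hgv, show v - (v - 1) = 1 by omega]; rfl
      have e0 : V (Op.A :: pr g c (v + 1) v) [] = V (pr g c (v + 1) v) [0] := by
        rw [V]; simp [cand, W]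
      have key := h1 c (by omega) (v + 1) (fun y => if y = 0 then 1 else 0) 1 (by omega)
        (fun u u' a b e => hm u u' (by omega) b (by omega))
        (fun u a b => hb u (by omega) (by omega))
        (fun h => by have := hnext h; omega) (fun x hx => if_neg (by omega))
        (fun x => by split_ifs; exacts [one_mem _, zero_mem _])
      simp only [Finset.sum_range_one, if_true, one_mul, Nat.add_sub_cancel] at key
      refine sum_mem fun y _ => mul_mem (hpos y) ?_
      rw [e, V_D, e0]
      exact mul_mem (eps_mem _ _) key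

theorem all_pos (g : ℕ → ℕ) : ∀ c, One g c ∧ TwoP g c := by
  intro c
  induction c using Nat.strong_induction_on with
  | _ c ih =>
    have h1 := one_step (g := g) (c := c) (fun c' h => (ih c' h).1) (fun c' h => (ih c' h).2)
    exact ⟨h1, two_of_one h1 fun c' h => (ih c' h).2⟩

theorem Psi_pos {g : ℕ → ℕ} {n : ℕ} (hg : Good g n) (hk : ∀ v, v < n → v ≤ g v + 2) :
    Psi g n ∈ Pos := by
  match n, hg, hk with
  | 0, _, _ => rw [Psi_zero]; exact one_mem _
  | n + 1, hg, hk =>
    have h0 : g 0 = 0 := Nat.le_zero.1 (hg.le_self 0 (by omega))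
    have e : Psi g (n + 1) = V (pr g n 1 0) [0] := by
      rw [Psi, word, pr, h0, Nat.sub_self, show drops 0 = [] from rfl, List.nil_append, V]
      simp [cand, W]
    have key := (all_pos g n).1 1 (fun y => if y = 0 then 1 else 0) 1 one_pos
      (fun u u' _ b c => hg.mono u u' b (by omega))
      (fun u _ b => ⟨hg.le_self u (by omega), hk u (by omega)⟩)
      (fun _ => Nat.zero_le _) (fun x hx => if_neg (by omega))
      (fun x => by split_ifs; exacts [one_mem _, zero_mem _])
    simp only [Finset.sum_range_one, if_true, one_mul, Nat.sub_self] at key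
    rw [e]; exact key

end Vale.Agent.P066
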