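import Mathlib

/-!
Scalars for the chromatic quasisymmetric functions: the field `RatFunc ℚ`, the variable `q`,
quantum integers and the transition factor `om`.
-/

namespace Vale.Agent.P066

abbrev K := RatFunc ℚ

noncomputable def q : K := RatFunc.X

theorem q_ne_zero : q ≠ 0 := RatFunc.X_ne_zero

theorem qpow_ne_one_nat {m : ℕ} (hm : m ≠ 0) : q ^ m ≠ 1 := by
  intro h
  have h1 : algebraMap (Polynomial ℚ) K (Polynomial.X ^ m) = algebraMap (Polynomial ℚ) K 1 := by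
    simpa [q] using h
  have h2 := RatFunc.algebraMap_injective ℚ h1
  have h3 := congrArg Polynomial.natDegree h2
  simp at h3
  exact hm h3

theorem qpow_ne_one {D : ℤ} (hD : D ≠ 0) : q ^ D ≠ 1 := by
  intro h
  obtain ⟨m, rfl | rfl⟩ := D.eq_nat_or_neg
  · exact qpow_ne_one_nat (by omega : m ≠ 0) (by simpa using h)
  · exact qpow_ne_one_nat (by omega : m ≠ 0) (by simpa [zpow_neg, inv_eq_one] using h)

theorem qpow_sub_one_ne {D : ℤ} (hD : D ≠ 0) : q ^ D - 1 ≠ 0 :=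
  sub_ne_zero.2 (qpow_ne_one hD)

theorem q_sub_one_ne : q - 1 ≠ 0 := by simpa using qpow_sub_one_ne (D := 1) (by norm_num)

noncomputable def qn (m : ℕ) : K := ∑ i ∈ Finset.range m, q ^ i

theorem qn_eq (m : ℕ) : qn m = (q ^ m - 1) / (q - 1) := by
  rw [eq_div_iff q_sub_one_ne]
  exact geom_sum_mul q m

@[simp] theorem qn_zero : qn 0 = 0 := by simp [qn]
@[simp] theorem qn_one : qn 1 = 1 := by simp [qn]
theorem qn_two : qn 2 = 1 + q := by simp [qn, Finset.sum_range_succ]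

theorem qn_succ (m : ℕ) : qn (m + 1) = 1 + q * qn m := by
  rw [qn, qn, Finset.sum_range_succ', Finset.mul_sum]
  simp [pow_succ', add_comm]

theorem qn_succ' (m : ℕ) : qn (m + 1) = qn m + q ^ m := by
  rw [qn, qn, Finset.sum_range_succ]

theorem qn_add (a b : ℕ) : qn (a + b) = qn a + q ^ a * qn b := by
  rw [qn, qn, qn, Finset.sum_range_add, Finset.mul_sum]
  simp [pow_add]

theorem qn_ne_zero {m : ℕ} (hm : m ≠ 0) : qn m ≠ 0 := by
  rw [qn_eq]
  exact div_ne_zero (sub_ne_zero.2 (qpow_ne_one_nat hm)) q_sub_one_ne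

theorem qn_two_ne : (1 : K) + q ≠ 0 := qn_two ▸ qn_ne_zero (by norm_num)

noncomputable def om (D : ℤ) : K := if D = 1 then 1 else (q ^ D - 1) / (q ^ (D - 1) - 1)

@[simp] theorem om_one : om 1 = 1 := by simp [om]
@[simp] theorem om_zero : om 0 = 0 := by simp [om]

theorem om_eq {D : ℤ} (h : D ≠ 1) : om D = q * (q ^ D - 1) / (q ^ D - q) := by
  have e : q ^ D = q ^ (D - 1) * q := by
    rw [← zpow_add_one₀ q_ne_zero]; congr 1; ring
  have hd : q ^ (D - 1) - 1 ≠ 0 := qpow_sub_one_ne (by omega)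
  have hd' : q ^ D - q ≠ 0 := by
    rw [e, show q ^ (D - 1) * q - q = (q ^ (D - 1) - 1) * q by ring]
    exact mul_ne_zero hd q_ne_zero
  rw [om, if_neg h, div_eq_div_iff hd hd', e]
  ring

theorem zpow_sub_q_ne {D : ℤ} (h : D ≠ 1) : q ^ D - q ≠ 0 := by
  intro e
  have e1 : q ^ D = q := sub_eq_zero.1 e
  have : q ^ (D - 1) = 1 := by rw [zpow_sub₀ q_ne_zero, e1]; simp [q_ne_zero]
  exact qpow_ne_one (by omega) this

theorem om_two : om 2 = 1 + q := by
  rw [om, if_neg (by norm_num)]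
  rw [div_eq_iff (qpow_sub_one_ne (by norm_num))]
  simp [show ((2 : ℤ) - 1) = 1 by norm_num]
  ring

theorem zA (d : ℤ) : q ^ (d + 1) = q * q ^ d := by
  rw [zpow_add_one₀ q_ne_zero]; ring

theorem zN (d : ℤ) : q ^ (1 - d) = q / q ^ d := by
  rw [zpow_sub₀ q_ne_zero]; simp

theorem zpow_inv_sub_q_ne {d : ℤ} (h : d ≠ -1) : 1 - q * q ^ d ≠ 0 := by
  rw [← zA]; exact sub_ne_zero.2 (Ne.symm (qpow_ne_one (by omega)))

theorem om_succ {d : ℤ} (h : d ≠ 0) : om (d + 1) = (q * q ^ d - 1) / (q ^ d - 1) := by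
  rw [om, if_neg (by omega), zA, add_sub_cancel_right]

theorem om_one_sub {d : ℤ} (h : d ≠ 0) : om (1 - d) = (q ^ d - q) / (q ^ d - 1) := by
  have hY : q ^ d ≠ 0 := zpow_ne_zero _ q_ne_zero
  rw [om, if_neg (by omega), zN, show (1 - d - 1) = -d by ring, zpow_neg]
  rw [div_eq_div_iff (by rw [sub_ne_zero]; simpa [inv_eq_one] using qpow_ne_one h)
    (qpow_sub_one_ne h)]
  field_simp
  ring

theorem om_neg {d : ℤ} (h : d ≠ -1) : om (-d) = q * (1 - q ^ d) / (1 - q * q ^ d) := by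
  have hY : q ^ d ≠ 0 := zpow_ne_zero _ q_ne_zero
  rw [om_eq (by omega), zpow_neg, div_eq_div_iff]
  · field_simp
  · rw [← zpow_neg]; exact zpow_sub_q_ne (by omega)
  · exact zpow_inv_sub_q_ne h

theorem om_neg_one : om (-1) = q / (1 + q) := by
  rw [om_neg (by norm_num : (1 : ℤ) ≠ -1), div_eq_div_iff (zpow_inv_sub_q_ne (by norm_num)) qn_two_ne]
  simp; ring

theorem I1 {D : ℤ} (h1 : D ≠ 1) (h0 : D ≠ 0) :
    (1 + q) * om D = q + om D * om (D + 1) := by
  rw [om_eq h1, om_succ h0]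
  have := zpow_sub_q_ne h1
  have := qpow_sub_one_ne h0
  field_simp
  ring

theorem I2 {d : ℤ} (h0 : d ≠ 0) (h1 : d ≠ 1) (h2 : d ≠ -1) :
    (1 + q) * om d = om (d + 1) * (om d + om (-d)) := by
  rw [om_eq h1, om_succ h0, om_neg h2]
  have := zpow_sub_q_ne h1
  have := qpow_sub_one_ne h0
  have := zpow_inv_sub_q_ne h2
  field_simp
  ring

theorem I3 {d A B : ℤ} (_h0 : d ≠ 0) (h1 : d ≠ 1) (h2 : d ≠ -1) (hA : A ≠ 1) (hB : B ≠ 1)
    (hAB : B = A + d) :
    (1 + q) * (om A * om d + om B * om (-d)) = (q + om A * om B) * (om d + om (-d)) := by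
  rw [om_eq hA, om_eq hB, om_eq h1, om_neg h2]
  have := zpow_sub_q_ne hA
  have hB' := zpow_sub_q_ne hB
  have := zpow_sub_q_ne h1
  have := zpow_inv_sub_q_ne h2
  subst hAB
  rw [zpow_add₀ q_ne_zero] at hB' ⊢
  field_simp
  ring

theorem I4 {d : ℤ} (h0 : d ≠ 0) : om (d + 1) + om (1 - d) = 1 + q := by
  rw [om_succ h0, om_one_sub h0]
  have := qpow_sub_one_ne h0
  field_simp
  ring

theorem I5 {d A B : ℤ} (h0 : d ≠ 0) (hA : A ≠ 1) (hB : B ≠ 1) (hAB : A = B + d) :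
    om (d + 1) * om B + om (1 - d) * om A = q + om A * om B := by
  rw [om_succ h0, om_one_sub h0, om_eq hA, om_eq hB]
  have hA' := zpow_sub_q_ne hA
  have := zpow_sub_q_ne hB
  have := qpow_sub_one_ne h0
  subst hAB
  rw [zpow_add₀ q_ne_zero] at hA' ⊢
  generalize q ^ B = b at *
  generalize q ^ d = c at *
  rw [div_mul_div_comm, div_mul_div_comm, div_mul_div_comm, div_add_div _ _ ?_ ?_,
    div_eq_iff ?_]
  · rw [mul_comm] at hA'
    field_simp
    ring
  all_goals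
    first
    | exact mul_ne_zero (mul_ne_zero (by assumption) (by assumption)) (mul_ne_zero (by assumption) (by assumption))
    | exact mul_ne_zero (by assumption) (by assumption)

theorem I6 {d : ℤ} (h0 : d ≠ 0) (h1 : d ≠ 1) (h2 : d ≠ -1) :
    om d * om (1 - d) = om (-d) * om (d + 1) := by
  rw [om_succ h0, om_one_sub h0, om_eq h1, om_neg h2]
  have := zpow_sub_q_ne h1
  have := qpow_sub_one_ne h0
  have := zpow_inv_sub_q_ne h2
  field_simp
  ring

end Vale.Agent.P066
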