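import Vale.Agent.P066.Uniq

/-!
The subsemiring of polynomials with coefficients in `ℕ[q]`, and scalar facts.
-/

namespace Vale.Agent.P066

open MvPolynomial

noncomputable def hom : Polynomial ℕ →+* K := Polynomial.eval₂RingHom (Nat.castRingHom K) q

noncomputable def PosK : Subsemiring K := hom.rangeS

noncomputable def Pos : Subsemiring L := (MvPolynomial.map hom : MvPolynomial ℕ (Polynomial ℕ) →+* L).rangeS

theorem q_mem : q ∈ PosK := ⟨Polynomial.X, by simp [hom]⟩

theorem qn_mem (m : ℕ) : qn m ∈ PosK :=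
  sum_mem fun i _ => pow_mem q_mem i

theorem two_mem : (1 + q : K) ∈ PosK := add_mem (one_mem _) q_mem

theorem C_mem {c : K} (h : c ∈ PosK) : (C c : L) ∈ Pos := by
  obtain ⟨p, rfl⟩ := h
  exact ⟨C p, by simp⟩

theorem X_mem (i : ℕ) : (X i : L) ∈ Pos := ⟨X i, by simp⟩

theorem em_mem (m : ℕ) : em m ∈ Pos := mul_mem (C_mem (qn_mem m)) (X_mem m)

theorem eps_mem (x : ℕ) (R : List ℕ) : eps x R ∈ Pos := by
  unfold eps; split_ifs
  · exact one_mem _
  · exact em_mem _

theorem two_dom (m : ℕ) : (1 + q) * qn (m + 1) - qn (m + 2) = q * qn m := by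
  rw [qn_succ (m + 1), qn_succ m]; ring

theorem dom (c : ℕ) (hc : 0 < c) : ∀ m : ℕ, (1 + q) ^ m * qn c - qn (c + m) ∈ PosK := by
  intro m
  induction m with
  | zero => simp
  | succ m ih =>
    obtain ⟨d, hd⟩ : ∃ d, c + m = d + 1 := ⟨c + m - 1, by omega⟩
    have e : (1 + q) ^ (m + 1) * qn c - qn (c + (m + 1)) =
        (1 + q) * ((1 + q) ^ m * qn c - qn (c + m)) + q * qn d := by
      rw [show c + (m + 1) = d + 2 by omega, hd, ← two_dom]; ring
    rw [e]
    exact add_mem (mul_mem two_mem ih) (mul_mem q_mem (qn_mem d))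

theorem om_nat_succ {m : ℕ} (hm : 0 < m) : om ((m : ℤ) + 1) = qn (m + 1) / qn m := by
  rw [om_succ (by omega), qn_eq, qn_eq, zpow_natCast]
  have h1 : q ^ m - 1 ≠ 0 := sub_ne_zero.2 (qpow_ne_one_nat (by omega))
  have h2 := q_sub_one_ne
  field_simp
  ring

theorem om_nat_neg (m : ℕ) : om (-(m : ℤ)) = q * qn m / qn (m + 1) := by
  rw [om_neg (by omega), qn_eq, qn_eq, zpow_natCast]
  have h1 : q ^ (m + 1) - 1 ≠ 0 := sub_ne_zero.2 (qpow_ne_one_nat (by omega))
  have h2 := q_sub_one_ne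
  have h3 : 1 - q * q ^ m ≠ 0 := by
    intro h; apply h1; linear_combination (-1 : K) * h
  field_simp
  ring

theorem qid_gt (y a : ℕ) :
    qn y * qn (y + a + 1) + q ^ y * qn a = qn (y + 1) * qn (y + a) := by
  rw [qn_succ (y + a), qn_succ y, qn_add]
  ring

theorem qid_lt (x b : ℕ) :
    qn (x + b) * qn (x + 1) - q ^ x * qn b = qn (x + b + 1) * qn x := by
  rw [qn_succ (x + b), qn_succ x, qn_add]
  ring

end Vale.Agent.P066
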