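import Vale.Agent.P066.HikMod2

/-!
Graphs as programs.  `g v` is the smallest vertex adjacent-or-equal to `v`.
-/

namespace Vale.Agent.P066

open MvPolynomial

def countA : List Op → ℕ
  | [] => 0
  | Op.A :: w => countA w + 1
  | Op.D :: w => countA w

def drops (k : ℕ) : List Op := List.replicate k Op.D

def pre (g : ℕ → ℕ) : ℕ → ℕ → ℕ → List Op
  | 0, _, _ => []
  | c + 1, v, p => drops (g v - p) ++ Op.A :: pre g c (v + 1) (g v)

def endp (g : ℕ → ℕ) : ℕ → ℕ → ℕ → ℕ
  | 0, _, p => p
  | c + 1, v, _ => endp g c (v + 1) (g v)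

def pr (g : ℕ → ℕ) : ℕ → ℕ → ℕ → List Op
  | 0, v, p => drops (v - p)
  | c + 1, v, p => drops (g v - p) ++ Op.A :: pr g c (v + 1) (g v)

def word (g : ℕ → ℕ) (n : ℕ) : List Op := pr g n 0 0

noncomputable def Psi (g : ℕ → ℕ) (n : ℕ) : L := V (word g n) []

structure Good (g : ℕ → ℕ) (n : ℕ) : Prop where
  le_self : ∀ v, v < n → g v ≤ v
  mono : ∀ u v, u ≤ v → v < n → g u ≤ g v

theorem drops_add (a b : ℕ) : drops (a + b) = drops a ++ drops b := List.replicate_add ..

theorem drops_succ (a : ℕ) : drops (a + 1) = Op.D :: drops a := rfl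

theorem pr_split (g : ℕ → ℕ) : ∀ c d v p,
    pr g (c + d) v p = pre g c v p ++ pr g d (v + c) (endp g c v p) := by
  intro c
  induction c with
  | zero => intro d v p; simp [pre, endp]
  | succ c ih =>
    intro d v p
    rw [show c + 1 + d = (c + d) + 1 by omega, pr, pre, endp, ih,
      show v + 1 + c = v + (c + 1) by omega]
    simp

theorem pr_congr {g g' : ℕ → ℕ} : ∀ c v p, (∀ u, v ≤ u → u < v + c → g u = g' u) →
    pr g c v p = pr g' c v p := by
  intro c
  induction c with
  | zero => intro v p _; rfl
  | succ c ih =>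
    intro v p h
    rw [pr, pr, h v le_rfl (by omega), ih (v + 1) _ fun u h1 h2 => h u (by omega) (by omega)]

theorem pre_congr {g g' : ℕ → ℕ} : ∀ c v p, (∀ u, v ≤ u → u < v + c → g u = g' u) →
    pre g c v p = pre g' c v p ∧ endp g c v p = endp g' c v p := by
  intro c
  induction c with
  | zero => intro v p _; exact ⟨rfl, rfl⟩
  | succ c ih =>
    intro v p h
    rw [pre, pre, endp, endp, h v le_rfl (by omega)]
    obtain ⟨h1, h2⟩ := ih (v + 1) (g' v) fun u a b => h u (by omega) (by omega)
    exact ⟨by rw [h1], h2⟩

/-- one drop can be pulled out -/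
theorem pr_pop (g : ℕ → ℕ) : ∀ c v p, p < v → (0 < c → p < g v) →
    pr g c v p = Op.D :: pr g c v (p + 1) := by
  intro c v p hv hc
  cases c with
  | zero => rw [pr, pr, show v - p = v - (p + 1) + 1 by omega, drops_succ]
  | succ c =>
    have := hc (Nat.succ_pos c)
    rw [pr, pr, show g v - p = g v - (p + 1) + 1 by omega, drops_succ]
    rfl

theorem endp_bounds (g : ℕ → ℕ) : ∀ c v p b, (∀ u, v ≤ u → u < v + c → g u ≤ b) → p ≤ b →
    endp g c v p ≤ b := by
  intro c
  induction c with
  | zero => intro v p b _ h; exact h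
  | succ c ih =>
    intro v p b h hp
    exact ih (v + 1) (g v) b (fun u a e => h u (by omega) (by omega)) (h v le_rfl (by omega))

theorem countA_append (U w : List Op) : countA (U ++ w) = countA U + countA w := by
  induction U with
  | nil => simp [countA]
  | cons o U ih => cases o <;> simp [countA, ih] <;> omega

theorem countD_append (U w : List Op) : countD (U ++ w) = countD U + countD w := by
  induction U with
  | nil => simp [countD]
  | cons o U ih => cases o <;> simp [countD, ih] <;> omega

@[simp] theorem countA_drops (k : ℕ) : countA (drops k) = 0 := by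
  induction k with
  | zero => rfl
  | succ k ih => simp [drops_succ, countA, ih]

@[simp] theorem countD_drops (k : ℕ) : countD (drops k) = k := by
  induction k with
  | zero => rfl
  | succ k ih => simp [drops_succ, countD, ih]

theorem countA_pre (g : ℕ → ℕ) : ∀ c v p, countA (pre g c v p) = c := by
  intro c
  induction c with
  | zero => intro v p; rfl
  | succ c ih => intro v p; simp [pre, countA_append, countA, ih]

theorem countD_pre (g : ℕ → ℕ) : ∀ c v p, (∀ u u', v ≤ u → u ≤ u' → u' < v + c → g u ≤ g u') →
    (0 < c → p ≤ g v) → countD (pre g c v p) + p = endp g c v p := by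
  intro c
  induction c with
  | zero => intro v p _ _; simp [pre, endp, countD]
  | succ c ih =>
    intro v p hm hp
    have := hp (Nat.succ_pos c)
    have h2 := ih (v + 1) (g v) (fun u u' a b e => hm u u' (by omega) b (by omega))
      (fun h => hm v (v + 1) le_rfl (by omega) (by omega))
    simp only [pre, endp, countD_append, countD_drops, countD]
    omega

theorem lift (α β γ : L) (X₁ X₂ X₃ : List Op) : ∀ (U : List Op) (O : List ℕ), O.Nodup →
    (∀ O' : List ℕ, O'.Nodup → O'.length + countD U = O.length + countA U →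
      α * V X₁ O' + β * V X₂ O' + γ * V X₃ O' = 0) →
    α * V (U ++ X₁) O + β * V (U ++ X₂) O + γ * V (U ++ X₃) O = 0 := by
  intro U
  induction U with
  | nil => intro O hO h; exact h O hO (by simp [countA, countD])
  | cons o U ih =>
    intro O hO h
    cases o with
    | A =>
      rw [List.cons_append, List.cons_append, List.cons_append, V, V, V]
      simp only [Finset.mul_sum, ← Finset.sum_add_distrib]
      refine Finset.sum_eq_zero fun z _ => ?_
      by_cases hz : z ∈ O
      · simp [W_zero_of_mem hz]
      · have := ih (O ++ [z]) (nodup_insert_mid hO hz) fun O' a b => h O' a (by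
          simp [countA, countD] at b ⊢; omega)
        linear_combination C (W z O) * this
    | D =>
      cases O with
      | nil => simp
      | cons x R =>
        simp only [List.cons_append, V_D]
        have := ih R (List.nodup_cons.1 hO).2 fun O' a b => h O' a (by
          simp [countA, countD] at b ⊢; omega)
        linear_combination eps x R * this

theorem V_bal (w : List Op) : ∀ (U : List Op) (O : List ℕ), countA U + O.length = countD U →
    V (U ++ w) O = V U O * V w [] := by
  intro U
  induction U with
  | nil =>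
    intro O h
    obtain rfl : O = [] := by simpa [countA, countD] using h
    simp
  | cons o U ih =>
    intro O h
    cases o with
    | A =>
      rw [List.cons_append, V, V, Finset.sum_mul]
      refine Finset.sum_congr rfl fun z _ => ?_
      rw [ih (O ++ [z]) (by simp [countA, countD] at h ⊢; omega)]
      ring
    | D =>
      cases O with
      | nil => simp
      | cons x R =>
        rw [List.cons_append, V_D, V_D, ih R (by simp [countA, countD] at h ⊢; omega)]
        ring

theorem Tw_drops (w : List Op) : ∀ k i, k ≤ i → Tw (i - k) w → Tw i (drops k ++ w) := by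
  intro k
  induction k with
  | zero => intro i _ h; simpa [drops] using h
  | succ k ih =>
    intro i hi h
    obtain ⟨i, rfl⟩ : ∃ j, i = j + 1 := ⟨i - 1, by omega⟩
    simpa [drops_succ, Tw] using ih i (by omega) (by simpa using h)

theorem Tw_drops_big (w : List Op) : ∀ k i, i + 2 ≤ k → Tw i (drops k ++ w) := by
  intro k
  induction k with
  | zero => intro i h; omega
  | succ k ih =>
    intro i h
    cases i with
    | zero =>
      obtain ⟨k, rfl⟩ : ∃ j, k = j + 1 := ⟨k - 1, by omega⟩
      simp [drops_succ, Tw]
    | succ i => simpa [drops_succ, Tw] using ih i (by omega)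

theorem Tw_pr (g : ℕ → ℕ) (j : ℕ) : ∀ c v p, p ≤ j → j + 2 ≤ v →
    (∀ u, v ≤ u → u < v + c → g u ≠ j + 1) →
    (∀ u u', v ≤ u → u ≤ u' → u' < v + c → g u ≤ g u') → (0 < c → p ≤ g v) →
    Tw (j - p) (pr g c v p) := by
  intro c
  induction c with
  | zero =>
    intro v p hp hv _ _ _
    simpa [pr] using Tw_drops_big [] (v - p) (j - p) (by omega)
  | succ c ih =>
    intro v p hp hv hne hm hpg
    have h0 := hpg (Nat.succ_pos c)
    have hn := hne v le_rfl (by omega)
    rw [pr]
    by_cases h : g v ≤ j
    · refine Tw_drops _ _ _ (by omega) ?_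
      have := ih (v + 1) (g v) h (by omega) (fun u a b => hne u (by omega) (by omega))
        (fun u u' a b e => hm u u' (by omega) b (by omega))
        (fun _ => hm v (v + 1) le_rfl (by omega) (by omega))
      rw [show j - p - (g v - p) = j - g v by omega]
      simp only [Tw]; exact this
    · exact Tw_drops_big _ _ _ (by omega)

/-- Modular law, varied vertex below the twins. -/
theorem Psi_modI {g : ℕ → ℕ} {n j a : ℕ} (hg : Good g n) (hj : j + 1 < n) (h1 : g j = a)
    (h2 : g (j + 1) = a) (ha : a < j) (hne : ∀ u, u < n → g u ≠ j + 1)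
    (h3 : j + 2 < n → a < g (j + 2)) :
    C (1 + q) * Psi (Function.update g (j + 1) (a + 1)) n =
      C q * Psi (Function.update (Function.update g (j + 1) (a + 1)) j (a + 1)) n + Psi g n := by
  obtain ⟨d, rfl⟩ : ∃ d, n = j + (d + 2) := ⟨n - j - 2, by omega⟩
  set g1 := Function.update g (j + 1) (a + 1) with hg1
  set g0 := Function.update g1 j (a + 1) with hg0
  have a1 : g1 (j + 1) = a + 1 := Function.update_self ..
  have b1 : g1 j = a := by rw [hg1, Function.update_of_ne (by omega), h1]
  have a0 : g0 j = a + 1 := Function.update_self ..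
  have b0 : g0 (j + 1) = a + 1 := by rw [hg0, Function.update_of_ne (by omega), a1]
  have o1 : ∀ u, u ≠ j + 1 → g1 u = g u := fun u h => Function.update_of_ne h ..
  have o0 : ∀ u, u ≠ j → u ≠ j + 1 → g0 u = g u := fun u h h' => by
    rw [hg0, Function.update_of_ne h]; exact o1 u h'
  obtain ⟨p1, q1⟩ := pre_congr (g := g1) (g' := g) j 0 0 (fun u _ hu => o1 u (by omega))
  obtain ⟨p0, q0⟩ := pre_congr (g := g0) (g' := g) j 0 0 (fun u _ hu => o0 u (by omega) (by omega))
  set p := endp g j 0 0 with hp
  have hpa : p ≤ a := endp_bounds g j 0 0 a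
    (fun u _ hu => h1 ▸ hg.mono u j (by omega) (by omega)) (Nat.zero_le a)
  set w := pr g d (j + 2) (a + 1)
  have w1 : pr g1 d (j + 2) (a + 1) = w :=
    pr_congr d _ _ fun u hu _ => o1 u (by omega)
  have w0 : pr g0 d (j + 2) (a + 1) = w :=
    pr_congr d _ _ fun u hu _ => o0 u (by omega) (by omega)
  have hpop : pr g d (j + 2) a = Op.D :: w := pr_pop g d (j + 2) a (by omega) (fun h => h3 (by omega))
  set U := pre g j 0 0 ++ drops (a - p) with hU
  have E2 : word g (j + (d + 2)) = U ++ (Op.A :: Op.A :: Op.D :: w) := by
    rw [word, pr_split, ← hp, Nat.zero_add, pr, h1, pr, h2, hpop, hU]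
    simp [drops]
  have E1 : word g1 (j + (d + 2)) = U ++ (Op.A :: Op.D :: Op.A :: w) := by
    rw [word, pr_split, p1, q1, Nat.zero_add, pr, b1, pr, a1, w1, hU, Nat.add_sub_cancel_left]
    simp [drops]
  have E0 : word g0 (j + (d + 2)) = U ++ (Op.D :: Op.A :: Op.A :: w) := by
    rw [word, pr_split, p0, q0, Nat.zero_add, pr, a0, pr, b0, w0, hU,
      show a + 1 - p = a - p + 1 by omega, drops_add]
    simp [drops]
  have key := lift (C (1 + q)) (-C q) (-1) (Op.A :: Op.D :: Op.A :: w)
    (Op.D :: Op.A :: Op.A :: w) (Op.A :: Op.A :: Op.D :: w) U [] List.nodup_nil ?_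
  · simp only [Psi, E0, E1, E2]; linear_combination key
  intro O hO hlen
  have cd := countD_pre g j 0 0 (fun u u' _ h e => hg.mono u u' h (by omega)) (fun _ => Nat.zero_le _)
  rw [hU, countA_append, countD_append, countA_pre, countA_drops, countD_drops] at hlen
  simp only [List.length_nil] at hlen
  cases O with
  | nil => simp at hlen; omega
  | cons v O =>
    have htw : Tw O.length w := by
      have := Tw_pr g j d (j + 2) (a + 1) (by omega) le_rfl
        (fun u hu hu' => hne u (by omega)) (fun u u' _ h e => hg.mono u u' h (by omega))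
        (fun h => h3 (by omega))
      rw [show O.length = j - (a + 1) by simp at hlen; omega]
      exact this
    linear_combination typeI w v O hO htw

/-- Modular law, varied vertex above the twins. -/
theorem Psi_modII {g : ℕ → ℕ} {n u t : ℕ} (hg : Good g n) (hu : u < n) (h1 : g u = t + 1)
    (htu : t + 2 ≤ u) (htw : g t = g (t + 1)) (hbelow : g (u - 1) ≤ t)
    (habove : u + 1 < n → t + 2 ≤ g (u + 1)) :
    C (1 + q) * Psi g n =
      C q * Psi (Function.update g u (t + 2)) n + Psi (Function.update g u t) n := by
  obtain ⟨d, rfl⟩ : ∃ d, n = t + ((u - t - 2) + (d + 1) + 2) := ⟨n - u - 1, by omega⟩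
  set a := g t
  have ha : a ≤ t := hg.le_self t (by omega)
  set m := u - t - 2 with hm
  set g2 := Function.update g u t with hg2
  set g0 := Function.update g u (t + 2) with hg0
  set p := endp g t 0 0 with hp
  have hpa : p ≤ a := endp_bounds g t 0 0 a
    (fun x _ hx => hg.mono x t (by omega) (by omega)) (Nat.zero_le a)
  set p2 := endp g m (t + 2) a with hp2
  have hp2t : p2 ≤ t := endp_bounds g m (t + 2) a t
    (fun x _ hx => le_trans (hg.mono x (u - 1) (by omega) (by omega)) hbelow) ha
  set w := pr g d (u + 1) (t + 2)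
  set M := pre g m (t + 2) a ++ drops (t - p2) with hM
  set U := pre g t 0 0 ++ drops (a - p) with hU
  have gen : ∀ g' : ℕ → ℕ, (∀ x, x ≠ u → g' x = g x) → word g' (t + (m + (d + 1) + 2)) =
      U ++ (Op.A :: Op.A :: (pre g m (t + 2) a ++
        (drops (g' u - p2) ++ Op.A :: pr g d (u + 1) (g' u)))) := by
    intro g' h
    obtain ⟨p1, q1⟩ := pre_congr (g := g') (g' := g) t 0 0 (fun x _ hx => h x (by omega))
    obtain ⟨p1', q1'⟩ := pre_congr (g := g') (g' := g) m (t + 2) a (fun x _ hx => h x (by omega))
    rw [word, pr_split, p1, q1, ← hp, Nat.zero_add, pr, h t (by omega), pr, h (t + 1) (by omega),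
      ← htw, pr_split, p1', q1', ← hp2, pr, show t + 1 + 1 + m = u by omega,
      pr_congr (g := g') (g' := g) d (u + 1) (g' u) (fun x hx _ => h x (by omega)), hU]
    simp [drops, show g t = a from rfl]
  have hd2 : pr g d (u + 1) t = Op.D :: Op.D :: w := by
    rw [pr_pop g d (u + 1) t (by omega) (fun h => by have := habove (by omega); omega),
      pr_pop g d (u + 1) (t + 1) (by omega) (fun h => by have := habove (by omega); omega)]
  have hd1 : pr g d (u + 1) (t + 1) = Op.D :: w :=
    pr_pop g d (u + 1) (t + 1) (by omega) (fun h => by have := habove (by omega); omega)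
  have E1 : word g (t + (m + (d + 1) + 2)) =
      U ++ (Op.A :: Op.A :: (M ++ Op.D :: Op.A :: Op.D :: w)) := by
    rw [gen g fun _ _ => rfl, h1, show t + 1 - p2 = t - p2 + 1 by omega, drops_add, hd1, hM]
    simp [drops]
  have E0 : word g0 (t + (m + (d + 1) + 2)) =
      U ++ (Op.A :: Op.A :: (M ++ Op.D :: Op.D :: Op.A :: w)) := by
    rw [gen g0 fun _ h => Function.update_of_ne h .., show g0 u = t + 2 from Function.update_self ..,
      show t + 2 - p2 = t - p2 + 2 by omega, drops_add, hM]
    simp [drops, List.replicate_succ]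
    rfl
  have E2 : word g2 (t + (m + (d + 1) + 2)) =
      U ++ (Op.A :: Op.A :: (M ++ Op.A :: Op.D :: Op.D :: w)) := by
    rw [gen g2 fun _ h => Function.update_of_ne h .., show g2 u = t from Function.update_self ..,
      hd2, hM]
    simp
  have key := lift (C (1 + q)) (-C q) (-1) (Op.A :: Op.A :: (M ++ Op.D :: Op.A :: Op.D :: w))
    (Op.A :: Op.A :: (M ++ Op.D :: Op.D :: Op.A :: w))
    (Op.A :: Op.A :: (M ++ Op.A :: Op.D :: Op.D :: w)) U [] List.nodup_nil ?_
  · simp only [Psi, E0, E1, E2]; linear_combination key
  intro O hO hlen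
  have cd := countD_pre g t 0 0 (fun x x' _ h e => hg.mono x x' h (by omega)) (fun _ => Nat.zero_le _)
  have cd2 := countD_pre g m (t + 2) a (fun x x' _ h e => hg.mono x x' h (by omega))
    (fun h => hg.mono t (t + 2) (by omega) (by omega))
  rw [hU, countA_append, countD_append, countA_pre, countA_drops, countD_drops] at hlen
  simp only [List.length_nil] at hlen
  linear_combination typeII M w O hO (by rw [hM, countD_append, countD_drops]; omega)

theorem pr_shift (g : ℕ → ℕ) (m : ℕ) : ∀ c v p, (∀ x, v ≤ x → x < v + c → m ≤ g (x + m)) →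
    pr g c (v + m) (p + m) = pr (fun x => g (x + m) - m) c v p := by
  intro c
  induction c with
  | zero => intro v p _; simp only [pr]; congr 1; omega
  | succ c ih =>
    intro v p h
    have h0 := h v le_rfl (by omega)
    rw [pr, pr, show v + m + 1 = v + 1 + m by omega]
    have e := ih (v + 1) (g (v + m) - m) fun x a b => h x (by omega) (by omega)
    rw [Nat.sub_add_cancel h0] at e
    rw [e, show g (v + m) - (p + m) = g (v + m) - m - p by omega]

theorem Psi_split {g : ℕ → ℕ} {n m : ℕ} (hg : Good g n) (hm : m < n) (h : g m = m) :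
    Psi g n = Psi g m * Psi (fun x => g (x + m) - m) (n - m) := by
  obtain ⟨d, rfl⟩ : ∃ d, n = m + (d + 1) := ⟨n - m - 1, by omega⟩
  set p := endp g m 0 0 with hp
  have hpm : p ≤ m := endp_bounds g m 0 0 m
    (fun x _ hx => h ▸ hg.mono x m (by omega) (by omega)) (Nat.zero_le m)
  have e1 : word g m = pre g m 0 0 ++ drops (m - p) := by
    have := pr_split g m 0 0 0
    simpa [word, pr, ← hp] using this
  have e2 : word g (m + (d + 1)) = word g m ++ pr g (d + 1) m m := by
    rw [e1, word, pr_split, ← hp, Nat.zero_add]
    simp [pr, h, drops]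
  have sh := pr_shift g m (d + 1) 0 0 fun x _ hx => by
    have := hg.mono m (x + m) (by omega) (by omega); omega
  simp only [Nat.zero_add] at sh
  rw [Psi, e2, sh, V_bal, Nat.add_sub_cancel_left]
  · rfl
  · have cd := countD_pre g m 0 0 (fun x x' _ hh e => hg.mono x x' hh (by omega))
      (fun _ => Nat.zero_le _)
    rw [e1, countA_append, countD_append, countA_pre, countA_drops, countD_drops]
    simp; omega

noncomputable def qfact : ℕ → K
  | 0 => 1
  | m + 1 => qn (m + 1) * qfact m

theorem W_range : ∀ k : ℕ, W k (List.range k) = if k = 0 then 1 else qn k := by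
  intro k
  induction k with
  | zero => simp [W]
  | succ k ih =>
    have e : W (k + 1) ((List.range k).map Nat.succ) = W k (List.range k) := by
      simp [W, List.map_map, Function.comp_def]
    rw [List.range_succ_eq_map, W_cons, e, ih, if_neg (Nat.succ_ne_zero k)]
    cases k with
    | zero => simp
    | succ k =>
      rw [if_neg (Nat.succ_ne_zero k), show ((k + 1 + 1 : ℕ) : ℤ) - ((0 : ℕ) : ℤ) =
        ((k + 1 : ℕ) : ℤ) + 1 by omega, om_succ (by omega), qn_eq, qn_eq, zpow_natCast]
      have h1 : q ^ (k + 1) - 1 ≠ 0 := sub_ne_zero.2 (qpow_ne_one_nat (Nat.succ_ne_zero k))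
      have h2 := q_sub_one_ne
      field_simp
      ring

theorem wt_range {z k : ℕ} (h : z ≠ k) : wt z (List.range k) = 0 := by
  by_cases h1 : z < k
  · exact wt_of_mem (List.mem_range.2 h1)
  · rw [wt, if_neg]
    rw [mem_cand]; push Not
    exact ⟨by omega, fun c hc => by have := List.mem_range.1 hc; omega⟩

theorem V_drops_range' : ∀ k a : ℕ, V (drops (k + 1)) (List.range' a (k + 1)) = em (a + k + 1) := by
  intro k
  induction k with
  | zero => intro a; simp [drops, V_D, eps, List.range'_succ]
  | succ k ih =>
    intro a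
    rw [drops_succ, List.range'_succ, V_D, ih]
    simp [eps, List.range'_succ, add_assoc, add_left_comm]

theorem cand_wt_range (k : ℕ) : wt k (List.range k) = W k (List.range k) := by
  rw [wt, if_pos]
  cases k with
  | zero => simp [cand]
  | succ k => exact mem_cand.2 (Or.inr ⟨k, List.self_mem_range_succ, rfl⟩)

theorem Psi_clique (g : ℕ → ℕ) (m : ℕ) (hg : ∀ v, v < m + 1 → g v = 0) :
    Psi g (m + 1) = C (qfact (m + 1)) * X (m + 1) := by
  have gen : ∀ c v, v + c = m + 1 → 0 < v → C (qfact (v - 1)) * V (pr g c v 0) (List.range v) =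
      C (qfact (m + 1)) * X (m + 1) := by
    intro c
    induction c with
    | zero =>
      intro v hv _
      simp only [Nat.add_zero] at hv; subst hv
      rw [pr, Nat.sub_zero, List.range_eq_range', V_drops_range', em]
      simp only [Nat.zero_add, Nat.add_sub_cancel, qfact, map_mul]
      ring
    | succ c ih =>
      intro v hv hv0
      rw [pr, hg v (by omega), Nat.sub_zero, show drops 0 = [] from rfl, List.nil_append,
        V_A (S := Finset.range (bnd (List.range v) + v + 1)) _ (cand_subset_range (by omega)),
        Finset.sum_eq_single_of_mem v (by simp) (fun z _ hz => by simp [wt_range hz]),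
        cand_wt_range, W_range, if_neg (by omega), ← List.range_succ]
      have := ih (v + 1) (by omega) (by omega)
      rw [← this, Nat.add_sub_cancel]
      obtain ⟨v, rfl⟩ : ∃ x, v = x + 1 := ⟨v - 1, by omega⟩
      simp only [Nat.add_sub_cancel, qfact, map_mul]
      ring
  rw [Psi, word, pr, hg 0 (by omega), Nat.sub_self, show drops 0 = [] from rfl, List.nil_append,
    V_A (S := Finset.range 3) _ (cand_subset_range (by simp [bnd])),
    Finset.sum_eq_single_of_mem 0 (by simp)
      (fun z _ hz => by simp [show wt z ([] : List ℕ) = 0 from wt_range (k := 0) hz])]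
  have := gen m 1 (by omega) one_pos
  simpa [qfact, wt, cand, W, List.range_succ] using this

theorem Psi_zero (g : ℕ → ℕ) : Psi g 0 = 1 := by simp [Psi, word, pr, drops]

end Vale.Agent.P066
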