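import Vale.Agent.P066.Pos

/-!
The process with two open vertices and its positive recursion.
-/

namespace Vale.Agent.P066

open MvPolynomial

section

variable (P0 : ℕ → L) (B : ℕ)

noncomputable def vv : ℕ → ℕ → ℕ → L
  | 0, _, _ => 0
  | 1, x, y => P0 x * C (wt y [x])
  | t + 2, y, z => ∑ x ∈ Finset.range B, vv (t + 1) x y * (C (wt z [x, y]) * eps x [y, z])

noncomputable def vz (τ : ℤ) (x y : ℕ) : L := if 0 < τ then vv P0 B τ.toNat x y else 0

noncomputable def Wz (τ : ℤ) (a : ℕ) : L := C (qn (a + 1)) * vz P0 B τ a 0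

noncomputable def de (τ : ℤ) (a : ℕ) : L :=
  C ((qn a)⁻¹) * (Wz P0 B τ a - C q * Wz P0 B (τ - 1) (a - 1))

noncomputable def Pt (t y : ℕ) : L := ∑ x ∈ Finset.range B, vv P0 B t x y * eps x [y]

/-- the kernel -/
noncomputable def Kd (t x y : ℕ) : L :=
  if y < x then -(C (q ^ y) * de P0 B ((t : ℤ) - 2 * y) (x - y))
  else if x < y then C (q ^ x) * de P0 B ((t : ℤ) - 2 * x) (y - x) else 0

noncomputable def Hh (t z x : ℕ) : L :=
  if z < x then C (q ^ (2 * z + 1)) * Wz P0 B ((t : ℤ) - 2 * z) (x - z)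
  else if x + 2 ≤ z then -(C (q ^ (2 * x + 2)) * Wz P0 B ((t : ℤ) - 2 * x - 1) (z - x - 1)) else 0

noncomputable def Om (t y : ℕ) : L :=
  C (q ^ y * (1 + q) ^ y) * ∑ x ∈ Finset.range B,
    X (x + 1) * (if y < x then Wz P0 B ((t : ℤ) - 2 * y) (x - y) else 0)

theorem vz_nat (t x y : ℕ) : vz P0 B (t : ℤ) x y = vv P0 B t x y := by
  unfold vz
  split_ifs with h
  · simp
  · rw [show t = 0 by omega, vv]

theorem vz_nonpos {τ : ℤ} (h : τ ≤ 0) (x y : ℕ) : vz P0 B τ x y = 0 := if_neg (by omega)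

theorem Wz_nonpos {τ : ℤ} (h : τ ≤ 0) (a : ℕ) : Wz P0 B τ a = 0 := by
  simp [Wz, vz_nonpos P0 B h]

theorem de_nonpos {τ : ℤ} (h : τ ≤ 0) (a : ℕ) : de P0 B τ a = 0 := by
  simp [de, Wz_nonpos P0 B h, Wz_nonpos P0 B (show τ - 1 ≤ 0 by omega)]

theorem wt_pair_diag (z x : ℕ) : wt z [z, x] = 0 ∧ wt z [x, z] = 0 :=
  ⟨wt_of_mem (by simp), wt_of_mem (by simp)⟩

theorem vv_diag : ∀ t x, vv P0 B t x x = 0 := by
  intro t
  match t with
  | 0 => intro x; rfl
  | 1 => intro x; simp [vv, wt_of_mem]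
  | t + 2 => intro x; rw [vv]; exact Finset.sum_eq_zero fun a _ => by simp [(wt_pair_diag x a).2]

theorem Wz_zero (τ : ℤ) : Wz P0 B τ 0 = 0 := by
  rw [Wz, vz]; split_ifs <;> simp [vv_diag]

theorem de_zero (τ : ℤ) : de P0 B τ 0 = 0 := by simp [de]

theorem Wz_eq (τ : ℤ) {a : ℕ} (ha : 0 < a) :
    Wz P0 B τ a = C (qn a) * de P0 B τ a + C q * Wz P0 B (τ - 1) (a - 1) := by
  rw [de, ← mul_assoc, ← map_mul, mul_inv_cancel₀ (qn_ne_zero (by omega)), map_one, one_mul]
  ring

theorem de_one (τ : ℤ) : de P0 B τ 1 = Wz P0 B τ 1 := by simp [de, Wz_zero]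

variable {M0 : ℕ} (hP : ∀ x, M0 ≤ x → P0 x = 0)

include hP in
theorem vv_support : ∀ t x y, (M0 + t ≤ x ∨ M0 + t ≤ y) → vv P0 B t x y = 0 := by
  intro t
  induction t using Nat.strong_induction_on with
  | _ t ih =>
    intro x y h
    match t, ih, h with
    | 0, _, _ => rfl
    | 1, _, h =>
      rw [vv]
      rcases h with h | h
      · simp [hP x (by omega)]
      · rcases Nat.lt_or_ge x M0 with hx | hx
        · rw [wt, if_neg]
          · simp
          · rw [mem_cand]; simp; omega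
        · simp [hP x hx]
    | t + 2, ih, h =>
      rw [vv]
      refine Finset.sum_eq_zero fun a _ => ?_
      by_cases ha : M0 + (t + 1) ≤ a ∨ M0 + (t + 1) ≤ x
      · rw [ih (t + 1) (by omega) a x ha, zero_mul]
      · rw [wt, if_neg]
        · simp
        · rw [mem_cand]; simp; omega

include hP in
theorem vv_shift {T : ℕ} (hB : M0 + T ≤ B) (t y z : ℕ) (ht : t + 1 ≤ T) (hz0 : 0 < z)
    (hzy : z ≠ y + 1) :
    vv P0 B (t + 2) y z = vv P0 B (t + 1) (z - 1) y * C (om ((z : ℤ) - y)) := by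
  rw [vv, Finset.sum_eq_single (z - 1)]
  · by_cases hxy : z - 1 = y
    · omega
    have hw : wt z [z - 1, y] = om ((z : ℤ) - y) := by
      rw [wt_cons, if_pos (by omega)]
      simp [W]
    have he : eps (z - 1) [y, z] = 1 := by
      simp [eps, show z - 1 + 1 = z by omega]
    rw [hw, he, mul_one]
  · intro x _ hx
    rw [wt_cons, if_neg (by omega), wt_cons, if_neg hzy]
    simp [wt, cand, show ¬ z = 0 by omega]
  · intro hmem
    rw [Finset.mem_range] at hmem
    rw [vv_support P0 B hP _ _ _ (Or.inl (by omega)), zero_mul]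

theorem Wz_vz (τ : ℤ) (a : ℕ) : vz P0 B τ a 0 = C ((qn (a + 1))⁻¹) * Wz P0 B τ a := by
  rw [Wz, ← mul_assoc, ← map_mul, inv_mul_cancel₀ (qn_ne_zero (by omega)), map_one, one_mul]

include hP in
theorem vv_closed {T : ℕ} (hB : M0 + T ≤ B) : ∀ t, t ≤ T + 1 →
    (∀ x y, y < x → vv P0 B t x y =
      C (q ^ y * (qn (x - y + 1))⁻¹) * Wz P0 B ((t : ℤ) - 2 * y) (x - y)) ∧
    (∀ x y, x + 2 ≤ y → vv P0 B t x y =
      C (q ^ x * (qn (y - x - 1))⁻¹) * Wz P0 B ((t : ℤ) - 2 * x - 1) (y - x - 1)) := by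
  intro t
  induction t using Nat.strong_induction_on with
  | _ t ih =>
    intro ht
    match t, ih, ht with
    | 0, _, _ =>
      constructor <;> intro x y _ <;> rw [vv, Wz_nonpos P0 B (by omega), mul_zero]
    | 1, _, _ =>
      constructor
      · intro x y hxy
        rcases Nat.eq_zero_or_pos y with rfl | hy
        · simp [← Wz_vz, vz]
        · rw [vv, wt, if_neg, Wz_nonpos P0 B (by omega)]
          · simp
          · rw [mem_cand]; simp; omega
      · intro x y hxy
        rw [vv, wt, if_neg, Wz_nonpos P0 B (by omega)]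
        · simp
        · rw [mem_cand]; simp; omega
    | t + 2, ih, ht =>
      obtain ⟨hA, hBc⟩ := ih (t + 1) (by omega) (by omega)
      constructor
      · intro x y hxy
        rcases Nat.eq_zero_or_pos y with rfl | hy
        · rw [← vz_nat, Wz_vz]; simp
        · rw [vv_shift P0 B hP hB t x y (by omega) hy (by omega), hBc (y - 1) x (by omega)]
          have e1 : x - (y - 1) - 1 = x - y := by omega
          have e2 : ((t + 1 : ℕ) : ℤ) - 2 * ((y - 1 : ℕ) : ℤ) - 1 = ((t + 2 : ℕ) : ℤ) - 2 * y := by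
            omega
          rw [e1, e2, show (y : ℤ) - x = -((x - y : ℕ) : ℤ) by omega, om_nat_neg]
          have hne := qn_ne_zero (show x - y ≠ 0 by omega)
          have key : q ^ (y - 1) * (qn (x - y))⁻¹ * (q * qn (x - y) / qn (x - y + 1)) =
              q ^ y * (qn (x - y + 1))⁻¹ := by
            rw [show q ^ y = q ^ (y - 1) * q by rw [← pow_succ, show y - 1 + 1 = y by omega]]
            field_simp
          rw [← key]
          simp only [map_mul]; ring
      · intro x y hxy
        rw [vv_shift P0 B hP hB t x y (by omega) (by omega) (by omega), hA (y - 1) x (by omega)]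
        have e1 : y - 1 - x = y - x - 1 := by omega
        have e2 : ((t + 1 : ℕ) : ℤ) - 2 * x = ((t + 2 : ℕ) : ℤ) - 2 * x - 1 := by omega
        rw [e1, e2, show (y : ℤ) - x = ((y - x - 1 : ℕ) : ℤ) + 1 by omega, om_nat_succ (by omega)]
        have hne := qn_ne_zero (show y - x - 1 + 1 ≠ 0 by omega)
        have key : q ^ x * (qn (y - x - 1 + 1))⁻¹ * (qn (y - x - 1 + 1) / qn (y - x - 1)) =
            q ^ x * (qn (y - x - 1))⁻¹ := by
          field_simp
        rw [← key]
        simp only [map_mul]; ring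

include hP in
theorem Pt_zero {T : ℕ} (hB : M0 + T ≤ B) (t : ℕ) (ht : t ≤ T + 1) :
    Pt P0 B t 0 = Om P0 B t 0 := by
  rw [Pt, Om]
  simp only [pow_zero, mul_one, map_one, one_mul]
  refine Finset.sum_congr rfl fun x _ => ?_
  rcases Nat.eq_zero_or_pos x with rfl | hx
  · simp [vv_diag]
  · rw [(vv_closed P0 B hP hB t ht).1 x 0 hx, if_pos hx]
    simp [eps, em, show ¬ (x + 1 = 0) by omega]
    have := qn_ne_zero (show x + 1 ≠ 0 by omega)
    calc _ = C ((qn (x + 1))⁻¹ * qn (x + 1)) * (X (x + 1) * Wz P0 B (t : ℤ) x) := by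
            rw [map_mul]; ring
      _ = _ := by rw [inv_mul_cancel₀ this, map_one, one_mul]

include hP in
theorem Pt_one (y : ℕ) (hy : y < B) : Pt P0 B 1 (y + 1) = P0 y := by
  rw [Pt, Finset.sum_eq_single_of_mem y (Finset.mem_range.2 hy)]
  · rw [vv, wt_cons, if_pos rfl]; simp [eps, W]
  · intro x _ hx
    rw [vv, wt, if_neg]
    · simp
    · rw [mem_cand]; simp; omega

include hP in
theorem Pt_step {T : ℕ} (hB : M0 + T ≤ B) (t y : ℕ) (ht : t + 1 ≤ T) (hy : y < B) :
    Pt P0 B (t + 2) (y + 1) = C (1 + q) * Pt P0 B (t + 1) y +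
      ∑ x ∈ Finset.range B, X (x + 1) * (C (qn (x + 1)) * Kd P0 B (t + 1) x y) := by
  have e : ∀ x ∈ Finset.range B, vv P0 B (t + 2) x (y + 1) * eps x [y + 1] =
      (if x = y then ∑ a ∈ Finset.range B,
          vv P0 B (t + 1) a y * (C (om (((y + 1 : ℕ) : ℤ) - a)) * eps a [y]) else 0) +
        vv P0 B (t + 1) y x * (C (om (((y + 1 : ℕ) : ℤ) - x)) * em (x + 1)) := by
    intro x _
    by_cases hxy : x = y
    · subst hxy
      rw [if_pos rfl, vv_diag, zero_mul, add_zero, vv, show eps x [x + 1] = 1 by simp [eps], mul_one]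
      refine Finset.sum_congr rfl fun a _ => ?_
      by_cases hax : a = x
      · subst hax; simp [vv_diag]
      · congr 2
        · congr 1
          rw [wt_cons, if_neg (by omega), wt_cons, if_pos rfl]; simp [W]
        · simp [eps, hax]
    · rw [if_neg hxy, zero_add, vv_shift P0 B hP hB t x (y + 1) ht (by omega) (by omega),
        Nat.add_sub_cancel, mul_assoc]
      congr 2
      simp [eps, hxy]
  rw [Pt, Finset.sum_congr rfl e, Finset.sum_add_distrib, Finset.sum_ite_eq' (Finset.range B) y,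
    if_pos (Finset.mem_range.2 hy), Pt, Finset.mul_sum, ← Finset.sum_add_distrib,
    ← Finset.sum_add_distrib]
  refine Finset.sum_congr rfl fun x _ => ?_
  obtain ⟨hA, hBc⟩ := vv_closed P0 B hP hB (t + 1) (by omega)
  rcases lt_trichotomy x y with h | rfl | h
  · rw [Kd, if_neg (by omega), if_pos h, hA y x h]
    obtain ⟨b, hb, rfl⟩ : ∃ b, 0 < b ∧ y = x + b := ⟨y - x, by omega, by omega⟩
    rw [Nat.add_sub_cancel_left, show ((x + b + 1 : ℕ) : ℤ) - x = (b : ℤ) + 1 by omega,
      om_nat_succ hb]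
    rcases Nat.eq_or_lt_of_le hb with h1 | h1
    · subst h1
      simp only [de_one, Nat.succ_eq_add_one, Nat.zero_add, qn_one, div_one,
        show eps x [x + 1] = 1 by simp [eps], em]
      have h2 := qn_ne_zero (show (1 : ℕ) + 1 ≠ 0 by omega)
      rw [qn_two]
      rw [map_mul, ← sub_eq_zero]
      calc _ = (C ((1 + q)⁻¹) * C (1 + q) - 1) *
              (C (q ^ x) * (C (qn (x + 1)) * X (x + 1)) * Wz P0 B ((t + 1 : ℕ) - 2 * (x : ℤ)) 1) := by
            ring
        _ = 0 := by rw [← map_mul, inv_mul_cancel₀ qn_two_ne, map_one, sub_self, zero_mul]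
    · rw [hBc x (x + b) (by omega), de, show x + b - x - 1 = b - 1 by omega]
      rw [show eps x [x + b] = em (x + 1) by simp [eps]; omega, em]
      have n0 := qn_ne_zero (show b ≠ 0 by omega)
      have n1 := qn_ne_zero (show b + 1 ≠ 0 by omega)
      have n2 := qn_ne_zero (show b - 1 ≠ 0 by omega)
      have s1 : q ^ x * (qn (b - 1))⁻¹ * (qn (b + 1) / qn b) =
          (1 + q) * (q ^ x * (qn (b - 1))⁻¹) - q ^ x * (qn b)⁻¹ * q := by
        have := two_dom (b - 1)
        rw [show b - 1 + 1 = b by omega, show b - 1 + 2 = b + 1 by omega] at this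
        field_simp
        first
        | linear_combination -this
        | linear_combination (-q ^ x) * this
      have s2 : q ^ x * (qn (b + 1))⁻¹ * (qn (b + 1) / qn b) = q ^ x * (qn b)⁻¹ := by field_simp
      have s1' := congrArg (fun k : K => (C k : L)) s1
      have s2' := congrArg (fun k : K => (C k : L)) s2
      simp only [map_mul, map_sub] at s1' s2' ⊢
      linear_combination
        (C (qn (x + 1)) * X (x + 1) * Wz P0 B (((t + 1 : ℕ) : ℤ) - 2 * x - 1) (b - 1)) * s1' +
        (C (qn (x + 1)) * X (x + 1) * Wz P0 B (((t + 1 : ℕ) : ℤ) - 2 * x) b) * s2'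
  · simp [vv_diag, Kd]
  · rw [Kd, if_pos h, hA x y h]
    obtain ⟨a, ha, rfl⟩ : ∃ a, 0 < a ∧ x = y + a := ⟨x - y, by omega, by omega⟩
    rw [Nat.add_sub_cancel_left, show ((y + 1 : ℕ) : ℤ) - ((y + a : ℕ) : ℤ) = -((a - 1 : ℕ) : ℤ) by omega,
      om_nat_neg, show a - 1 + 1 = a by omega,
      show eps (y + a) [y] = em (y + a + 1) by simp [eps]; omega, em]
    rcases Nat.eq_or_lt_of_le ha with h1 | h1
    · subst h1
      simp only [de_one, Nat.succ_eq_add_one, Nat.zero_add, Nat.sub_self, qn_zero, mul_zero,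
        zero_div, map_zero, zero_mul, qn_two, show (1 : ℕ) + 1 = 2 from rfl]
      rw [map_mul, ← sub_eq_zero]
      calc _ = (1 - C ((1 + q)⁻¹) * C (1 + q)) *
              (C (q ^ y) * (C (qn (y + 1 + 1)) * X (y + 1 + 1)) *
                Wz P0 B ((t + 1 : ℕ) - 2 * (y : ℤ)) 1) := by
            ring
        _ = 0 := by rw [← map_mul, inv_mul_cancel₀ qn_two_ne, map_one, sub_self, zero_mul]
    · rw [hBc y (y + a) (by omega), de, show y + a - y - 1 = a - 1 by omega]
      have n0 := qn_ne_zero (show a ≠ 0 by omega)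
      have n1 := qn_ne_zero (show a + 1 ≠ 0 by omega)
      have n2 := qn_ne_zero (show a - 1 ≠ 0 by omega)
      have s1 : q ^ y * (qn (a + 1))⁻¹ * (q * qn (a - 1) / qn a) =
          (1 + q) * (q ^ y * (qn (a + 1))⁻¹) - q ^ y * (qn a)⁻¹ := by
        have := two_dom (a - 1)
        rw [show a - 1 + 1 = a by omega, show a - 1 + 2 = a + 1 by omega] at this
        field_simp
        first
        | linear_combination -this
        | linear_combination (-q ^ y) * this
      have s2 : q ^ y * (qn (a - 1))⁻¹ * (q * qn (a - 1) / qn a) = q ^ y * (qn a)⁻¹ * q := by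
        field_simp
      have s1' := congrArg (fun k : K => (C k : L)) s1
      have s2' := congrArg (fun k : K => (C k : L)) s2
      simp only [map_mul, map_sub] at s1' s2' ⊢
      linear_combination
        (C (qn (y + a + 1)) * X (y + a + 1) * Wz P0 B (((t + 1 : ℕ) : ℤ) - 2 * y) a) * s1' +
        (C (qn (y + a + 1)) * X (y + a + 1) *
          Wz P0 B (((t + 1 : ℕ) : ℤ) - 2 * y - 1) (a - 1)) * s2'

include hP in
theorem Wz_step {T : ℕ} (hB : M0 + T ≤ B) (t z : ℕ) (ht : t + 1 ≤ T) :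
    Wz P0 B ((t + 2 : ℕ) : ℤ) (z + 1) = C (q ^ 2 * qn z) * Pt P0 B (t + 1) (z + 1) +
      ∑ x ∈ Finset.range B, X (x + 1) * Hh P0 B (t + 1) (z + 1) x := by
  rw [Wz, vz_nat, vv, Pt, Finset.mul_sum, Finset.mul_sum, ← Finset.sum_add_distrib]
  refine Finset.sum_congr rfl fun x _ => ?_
  have hw : wt 0 [x, z + 1] = om (-(x : ℤ)) * om (-((z + 1 : ℕ) : ℤ)) := by
    simp [wt, cand, W]
  have he : eps x [z + 1, 0] = eps x [z + 1] := by simp [eps]
  rw [hw, he, om_nat_neg, om_nat_neg]
  obtain ⟨hA, hBc⟩ := vv_closed P0 B hP hB (t + 1) (by omega)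
  have m1 := qn_ne_zero (show z + 1 + 1 ≠ 0 by omega)
  have m2 := qn_ne_zero (show x + 1 ≠ 0 by omega)
  have common : qn (z + 1 + 1) * ((q * qn x / qn (x + 1)) * (q * qn (z + 1) / qn (z + 1 + 1))) =
      q ^ 2 * (qn x * qn (z + 1)) / qn (x + 1) := by
    field_simp
  rcases lt_trichotomy x z with h | rfl | h
  · rw [Hh, if_neg (by omega), if_pos (by omega), hBc x (z + 1) (by omega),
      show eps x [z + 1] = em (x + 1) by simp [eps]; omega, em]
    obtain ⟨b, hb, rfl⟩ : ∃ b, 0 < b ∧ z = x + b := ⟨z - x, by omega, by omega⟩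
    rw [show x + b + 1 - x - 1 = b by omega]
    have n0 := qn_ne_zero (show b ≠ 0 by omega)
    have n3 := qn_ne_zero (show x + b + 1 + 1 ≠ 0 by omega)
    have s1 : qn (x + b + 1 + 1) * (q * qn x / qn (x + 1) * (q * qn (x + b + 1) / qn (x + b + 1 + 1))) *
        qn (x + 1) * (q ^ x * (qn b)⁻¹) =
        q ^ 2 * qn (x + b) * qn (x + 1) * (q ^ x * (qn b)⁻¹) - q ^ (2 * x + 2) := by
      have := qid_lt x b
      field_simp
      linear_combination (-q ^ 2 * q ^ x) * this
    have s1' := congrArg (fun k : K => (C k : L)) s1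
    simp only [map_mul, map_sub] at s1' ⊢
    linear_combination
      (X (x + 1) * Wz P0 B (((t + 1 : ℕ) : ℤ) - 2 * x - 1) b) * s1'
  · rw [Hh, if_neg (by omega), if_neg (by omega), mul_zero, add_zero,
      show eps x [x + 1] = 1 by simp [eps]]
    have s : qn (x + 1 + 1) * (q * qn x / qn (x + 1) * (q * qn (x + 1) / qn (x + 1 + 1))) =
        q ^ 2 * qn x := by field_simp
    have s' := congrArg (fun k : K => (C k : L)) s
    simp only [map_mul] at s' ⊢
    linear_combination (vv P0 B (t + 1) x (x + 1)) * s'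
  · rcases Nat.eq_or_lt_of_le (show z + 1 ≤ x by omega) with h1 | h1
    · subst h1
      rw [vv_diag, Hh, if_neg (by omega), if_neg (by omega)]
      simp
    · rw [Hh, if_pos h1, hA x (z + 1) h1, show eps x [z + 1] = em (x + 1) by simp [eps]; omega, em]
      obtain ⟨a, ha, rfl⟩ : ∃ a, 0 < a ∧ x = z + 1 + a := ⟨x - z - 1, by omega, by omega⟩
      rw [Nat.add_sub_cancel_left]
      have n0 := qn_ne_zero (show a + 1 ≠ 0 by omega)
      have s1 : qn (z + 1 + 1) *
          (q * qn (z + 1 + a) / qn (z + 1 + a + 1) * (q * qn (z + 1) / qn (z + 1 + 1))) *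
          qn (z + 1 + a + 1) * (q ^ (z + 1) * (qn (a + 1))⁻¹) =
          q ^ 2 * qn z * qn (z + 1 + a + 1) * (q ^ (z + 1) * (qn (a + 1))⁻¹) +
            q ^ (2 * (z + 1) + 1) := by
        have := qid_gt z (a + 1)
        rw [show z + (a + 1) + 1 = z + 1 + a + 1 by omega,
          show z + (a + 1) = z + 1 + a by omega] at this
        field_simp
        linear_combination (-q ^ 2 * q ^ (z + 1)) * this
      have s1' := congrArg (fun k : K => (C k : L)) s1
      simp only [map_mul, map_add] at s1' ⊢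
      linear_combination
        (X (z + 1 + a + 1) * Wz P0 B (((t + 1 : ℕ) : ℤ) - 2 * ((z + 1 : ℕ) : ℤ)) a) * s1'

include hP in
theorem Wz_first {T : ℕ} (hB : M0 + T ≤ B) (a : ℕ) :
    Wz P0 B 1 a = C (q * qn a) * P0 a := by
  rw [Wz, show (1 : ℤ) = ((1 : ℕ) : ℤ) by rfl, vz_nat, vv,
    show wt 0 [a] = om (-(a : ℤ)) by simp [wt, cand, W], om_nat_neg]
  have := qn_ne_zero (show a + 1 ≠ 0 by omega)
  calc _ = C (qn (a + 1) * (q * qn a / qn (a + 1))) * P0 a := by rw [map_mul]; ring
    _ = _ := by congr 2; field_simp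

include hP in
theorem de_step {T : ℕ} (hB : M0 + T ≤ B) (s y : ℕ) (hs : s + 1 ≤ T) (hy : y < B) :
    de P0 B ((s + 2 : ℕ) : ℤ) (y + 1) = C (q ^ 2) * (Pt P0 B s y +
      ∑ x ∈ Finset.range B, X (x + 1) * (C (qn x) * Kd P0 B s x y)) := by
  suffices H : Wz P0 B ((s + 2 : ℕ) : ℤ) (y + 1) - C q * Wz P0 B ((s + 1 : ℕ) : ℤ) y =
      C (qn (y + 1)) * (C (q ^ 2) * (Pt P0 B s y +
        ∑ x ∈ Finset.range B, X (x + 1) * (C (qn x) * Kd P0 B s x y))) by
    rw [de, show ((s + 2 : ℕ) : ℤ) - 1 = ((s + 1 : ℕ) : ℤ) by omega, Nat.add_sub_cancel, H,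
      ← mul_assoc, ← map_mul, inv_mul_cancel₀ (qn_ne_zero (by omega)), map_one, one_mul]
  rw [Wz_step P0 B hP hB s y hs]
  rcases Nat.eq_zero_or_pos y with rfl | hy0
  · rw [Pt_zero P0 B hP hB s (by omega), Om, Wz_zero]
    simp only [pow_zero, mul_one, map_one, one_mul, qn_zero, mul_zero, zero_mul, map_zero,
      sub_zero, Nat.zero_add, qn_one]
    rw [← Finset.sum_add_distrib, Finset.mul_sum, zero_add]
    refine Finset.sum_congr rfl fun x _ => ?_
    rcases Nat.eq_zero_or_pos x with rfl | hx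
    · simp [Hh, Kd]
    rw [Kd, if_pos hx, if_pos hx, Hh]
    simp only [Nat.sub_zero, Nat.cast_zero, mul_zero, sub_zero, pow_zero, map_one, one_mul]
    rw [Wz_eq P0 B _ hx]
    rcases Nat.eq_or_lt_of_le hx with h1 | h1
    · subst h1; simp [Wz_zero]
    · rw [if_pos h1]
      simp only [map_pow, Nat.cast_one, mul_one, show 2 * 1 + 1 = 3 by rfl]
      rw [show ((s + 1 : ℕ) : ℤ) - 2 = (s : ℤ) - 1 by omega]
      ring
  rcases Nat.eq_zero_or_pos s with rfl | hs0
  · have hz : ∀ x, Hh P0 B 1 (y + 1) x = 0 := by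
      intro x; unfold Hh; split_ifs <;> first | rfl | rw [Wz_nonpos P0 B (by omega)]; simp
    have hk : ∀ x, Kd P0 B 0 x y = 0 := by
      intro x; unfold Kd; split_ifs <;> first | rfl | rw [de_nonpos P0 B (by omega)]; simp
    rw [show ((0 + 1 : ℕ) : ℤ) = 1 by rfl, Wz_first P0 B hP hB y, Nat.zero_add,
      Pt_one P0 B hP y hy]
    simp [hz, hk, Pt, vv]
    ring
  obtain ⟨s, rfl⟩ : ∃ k, s = k + 1 := ⟨s - 1, by omega⟩
  obtain ⟨y, rfl⟩ : ∃ k, y = k + 1 := ⟨y - 1, by omega⟩
  rw [show ((s + 1 + 1 : ℕ) : ℤ) = ((s + 2 : ℕ) : ℤ) by rfl, Wz_step P0 B hP hB s y (by omega),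
    Pt_step P0 B hP hB s (y + 1) (by omega) hy]
  have hyq : qn (y + 1) * (1 + q) = qn (y + 1 + 1) + q * qn y := by
    have := two_dom y
    linear_combination this
  have hyq' := congrArg (fun k : K => (C k : L)) hyq
  simp only [map_mul, map_add] at hyq'
  simp only [mul_add, Finset.mul_sum, map_mul, map_add, map_one, map_pow]
  rw [show ∀ a b c d e f g : L, a + b + c - (d + e) = f + g ↔ (a - d - f) + (b + c - e - g) = 0 from
    fun a b c d e f g => ⟨fun h => by linear_combination h, fun h => by linear_combination h⟩]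
  rw [← Finset.sum_add_distrib, ← Finset.sum_sub_distrib, ← Finset.sum_sub_distrib]
  rw [map_one] at hyq'
  rw [show (C q) ^ 2 * C (qn (y + 1)) * ((1 + C q) * Pt P0 B (s + 1) (y + 1)) -
      C q * ((C q) ^ 2 * C (qn y) * Pt P0 B (s + 1) (y + 1)) -
      C (qn (y + 1 + 1)) * ((C q) ^ 2 * Pt P0 B (s + 1) (y + 1)) = 0 by
    linear_combination ((C q) ^ 2 * Pt P0 B (s + 1) (y + 1)) * hyq', zero_add]
  refine Finset.sum_eq_zero fun x _ => ?_
  rcases lt_trichotomy x (y + 1) with h | rfl | h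
  · obtain ⟨b, hb, hbe⟩ : ∃ b, 0 < b ∧ y + 1 = x + b := ⟨y + 1 - x, by omega, by omega⟩
    rw [Kd, if_neg (by omega), if_pos h, Hh, Hh, if_neg (by omega),
      if_pos (by omega), if_neg (show ¬ y + 1 < x by omega)]
    have hk : y + 1 + 1 - x - 1 = b := by omega
    rw [hk, show y + 1 - x = b by omega,
      show ((s + 1 + 1 : ℕ) : ℤ) - 2 * x - 1 = ((s + 1 : ℕ) : ℤ) - 2 * x by omega,
      Wz_eq P0 B _ hb]
    have s1 : qn (x + b) * qn (x + 1) - q ^ x * qn b = qn (x + b + 1) * qn x := qid_lt x b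
    rw [← hbe] at s1
    have s1' := congrArg (fun k : K => (C k : L)) s1
    simp only [map_mul, map_sub, map_pow] at s1' ⊢
    split_ifs with h2
    · linear_combination ((C q) ^ (x + 2) * X (x + 1) *
        de P0 B (((s + 1 : ℕ) : ℤ) - 2 * x) b) * s1'
    · rw [show b - 1 = 0 by omega, Wz_zero]
      linear_combination ((C q) ^ (x + 2) * X (x + 1) *
        de P0 B (((s + 1 : ℕ) : ℤ) - 2 * x) b) * s1'
  · simp [Kd, Hh]
  · obtain ⟨a, ha, rfl⟩ : ∃ a, 0 < a ∧ x = y + 1 + a := ⟨x - (y + 1), by omega, by omega⟩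
    rw [Kd, if_pos h, Hh, Hh, if_pos h, Nat.add_sub_cancel_left,
      Wz_eq P0 B (((s + 1 : ℕ) : ℤ) - 2 * ((y + 1 : ℕ) : ℤ)) ha]
    have s1' := congrArg (fun k : K => (C k : L)) (qid_gt (y + 1) a)
    simp only [map_mul, map_add, map_pow] at s1' ⊢
    split_ifs with h2 h3
    · rw [show y + 1 + a - (y + 1 + 1) = a - 1 by omega,
        show ((s + 1 + 1 : ℕ) : ℤ) - 2 * ((y + 1 + 1 : ℕ) : ℤ) =
          ((s + 1 : ℕ) : ℤ) - 2 * ((y + 1 : ℕ) : ℤ) - 1 by omega]
      linear_combination (-((C q) ^ (y + 1 + 2)) * X (y + 1 + a + 1) *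
        de P0 B (((s + 1 : ℕ) : ℤ) - 2 * ((y + 1 : ℕ) : ℤ)) a) * s1'
    · omega
    · rw [show a - 1 = 0 by omega, Wz_zero]
      linear_combination (-((C q) ^ (y + 1 + 2)) * X (y + 1 + a + 1) *
        de P0 B (((s + 1 : ℕ) : ℤ) - 2 * ((y + 1 : ℕ) : ℤ)) a) * s1'

include hP in
theorem positive {T : ℕ} (hB : M0 + T ≤ B) (hpos : ∀ y, P0 y ∈ Pos) : ∀ t, t ≤ T →
    (∀ a, de P0 B (t : ℤ) a ∈ Pos) ∧
    (∀ y, y < B → ∃ r ∈ Pos, Pt P0 B t y = Om P0 B t y + r) := by
  intro t
  induction t using Nat.strong_induction_on with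
  | _ t ih =>
    intro ht
    have prev : ∀ (τ : ℤ), τ < t → ∀ a, de P0 B τ a ∈ Pos := by
      intro τ hτ a
      rcases le_or_gt τ 0 with h | h
      · rw [de_nonpos P0 B h]; exact zero_mem _
      · obtain ⟨k, rfl⟩ : ∃ k : ℕ, τ = k := ⟨τ.toNat, by omega⟩
        exact (ih k (by omega) (by omega)).1 a
    have hW : ∀ (τ : ℤ), τ < t → ∀ a, Wz P0 B τ a ∈ Pos := by
      intro τ hτ a
      induction a generalizing τ with
      | zero => rw [Wz_zero]; exact zero_mem _
      | succ a iha =>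
        rw [Wz_eq P0 B τ (Nat.succ_pos a)]
        exact add_mem (mul_mem (C_mem (qn_mem _)) (prev τ hτ _))
          (mul_mem (C_mem q_mem) (iha (τ - 1) (by omega)))
    constructor
    · intro a
      rcases Nat.eq_zero_or_pos a with rfl | ha
      · rw [de_zero]; exact zero_mem _
      match t, ih, ht, prev, hW with
      | 0, _, _, _, _ => rw [de_nonpos P0 B (by omega)]; exact zero_mem _
      | 1, _, _, _, _ =>
        have : de P0 B ((1 : ℕ) : ℤ) a = C q * P0 a := by
          rw [de, show ((1 : ℕ) : ℤ) = 1 by rfl, Wz_first P0 B hP hB,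
            Wz_nonpos P0 B (by omega : (1 : ℤ) - 1 ≤ 0), mul_zero, sub_zero, ← mul_assoc, ← map_mul]
          congr 2
          have := qn_ne_zero (show a ≠ 0 by omega)
          field_simp
        rw [this]; exact mul_mem (C_mem q_mem) (hpos a)
      | s + 2, ih, ht, prev, hW =>
        obtain ⟨y, rfl⟩ : ∃ y, a = y + 1 := ⟨a - 1, by omega⟩
        by_cases hy : y < B
        · rw [de_step P0 B hP hB s y (by omega) hy]
          refine mul_mem (C_mem (pow_mem q_mem 2)) ?_
          obtain ⟨r, hr, hPe⟩ := (ih s (by omega) (by omega)).2 y hy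
          rw [hPe, Om, Finset.mul_sum, add_right_comm, ← Finset.sum_add_distrib]
          refine add_mem (sum_mem fun x _ => ?_) hr
          rcases lt_trichotomy x y with h | rfl | h
          · rw [if_neg (by omega), Kd, if_neg (by omega), if_pos h, mul_zero, mul_zero, zero_add]
            exact mul_mem (X_mem _) (mul_mem (C_mem (qn_mem _))
              (mul_mem (C_mem (pow_mem q_mem _)) (prev _ (by omega) _)))
          · simp [Kd]
          · rw [if_pos h, Kd, if_pos h, Wz_eq P0 B _ (show 0 < x - y by omega)]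
            set d := de P0 B ((s : ℤ) - 2 * y) (x - y)
            set w := Wz P0 B ((s : ℤ) - 2 * y - 1) (x - y - 1)
            have e : C (q ^ y * (1 + q) ^ y) * (X (x + 1) * (C (qn (x - y)) * d + C q * w)) +
                X (x + 1) * (C (qn x) * -(C (q ^ y) * d)) =
                X (x + 1) * (C (q ^ y * ((1 + q) ^ y * qn (x - y) - qn x)) * d +
                  C (q ^ y * (1 + q) ^ y * q) * w) := by
              simp only [map_mul, map_sub]; ring
            rw [e]
            refine mul_mem (X_mem _) (add_mem (mul_mem (C_mem ?_) (prev _ (by omega) _))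
              (mul_mem (C_mem ?_) (hW _ (by omega) _)))
            · have := dom (x - y) (by omega) y
              rw [show x - y + y = x by omega] at this
              exact mul_mem (pow_mem q_mem _) this
            · exact mul_mem (mul_mem (pow_mem q_mem _) (pow_mem two_mem _)) q_mem
        · have z1 : ∀ (k : ℕ) (b : ℕ), M0 + k ≤ b → Wz P0 B (k : ℤ) b = 0 := by
            intro k b hb
            rw [Wz, vz_nat, vv_support P0 B hP k b 0 (Or.inl hb), mul_zero]
          rw [de, z1 _ _ (by omega), show ((s + 2 : ℕ) : ℤ) - 1 = ((s + 1 : ℕ) : ℤ) by omega,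
            Nat.add_sub_cancel, z1 _ _ (by omega)]
          simp
    · intro y hy
      match t, ih, ht, prev, y, hy with
      | 0, _, _, _, y, _ =>
        exact ⟨0, zero_mem _, by simp [Pt, vv, Om, Wz_nonpos P0 B (show -(2 * (y : ℤ)) ≤ 0 by omega)]⟩
      | 1, _, _, _, 0, _ => exact ⟨0, zero_mem _, by rw [add_zero, Pt_zero P0 B hP hB 1 (by omega)]⟩
      | 1, _, _, _, y + 1, hy =>
        refine ⟨P0 y, hpos y, ?_⟩
        rw [Pt_one P0 B hP y (by omega), Om]
        simp [Wz_nonpos P0 B (show (1 : ℤ) - 2 * (((y : ℕ) : ℤ) + 1) ≤ 0 by omega)]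
      | t + 2, _, _, _, 0, _ =>
        exact ⟨0, zero_mem _, by rw [add_zero, Pt_zero P0 B hP hB (t + 2) (by omega)]⟩
      | t + 2, ih, ht, prev, y + 1, hy =>
        obtain ⟨r, hr, hPe⟩ := (ih (t + 1) (by omega) (by omega)).2 y (by omega)
        set S : ℕ → L := fun x =>
          if y < x then X (x + 1) *
              (C (q ^ y * ((1 + q) ^ (y + 1) * qn (x - y) - qn (x + 1))) *
                de P0 B (((t + 1 : ℕ) : ℤ) - 2 * y) (x - y))
          else if x < y then X (x + 1) *
              (C (qn (x + 1)) * (C (q ^ x) * de P0 B (((t + 1 : ℕ) : ℤ) - 2 * x) (y - x)))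
          else 0 with hS
        refine ⟨C (1 + q) * r + ∑ x ∈ Finset.range B, S x, add_mem (mul_mem (C_mem two_mem) hr)
          (sum_mem fun x _ => ?_), ?_⟩
        · simp only [hS]
          split_ifs with h1 h2
          · refine mul_mem (X_mem _) (mul_mem (C_mem (mul_mem (pow_mem q_mem _) ?_)) (prev _ (by omega) _))
            have := dom (x - y) (by omega) (y + 1)
            rwa [show x - y + (y + 1) = x + 1 by omega] at this
          · exact mul_mem (X_mem _) (mul_mem (C_mem (qn_mem _))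
              (mul_mem (C_mem (pow_mem q_mem _)) (prev _ (by omega) _)))
          · exact zero_mem _
        · rw [Pt_step P0 B hP hB t y (by omega) (by omega), hPe, mul_add, Om, Om]
          simp only [Finset.mul_sum]
          rw [show ∀ a b c d e : L, a + b + c = d + (b + e) ↔ a + c = d + e from
            fun a b c d e => ⟨fun h => by linear_combination h, fun h => by linear_combination h⟩,
            ← Finset.sum_add_distrib, ← Finset.sum_add_distrib]
          refine Finset.sum_congr rfl fun x _ => ?_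
          simp only [hS, Kd]
          rcases lt_trichotomy x y with h | rfl | h
          · simp [h, show ¬ y < x by omega, show ¬ y + 1 < x by omega]
          · simp
          · simp only [if_pos h]
            rw [Wz_eq P0 B _ (show 0 < x - y by omega)]
            simp only [pow_succ, map_mul, map_sub, map_pow, map_add, map_one]
            split_ifs with h1
            · rw [show x - (y + 1) = x - y - 1 by omega,
                show ((t + 2 : ℕ) : ℤ) - 2 * ((y + 1 : ℕ) : ℤ) = ((t + 1 : ℕ) : ℤ) - 2 * y - 1 by omega]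
              ring
            · rw [show x - y - 1 = 0 by omega, Wz_zero]
              ring

end

end Vale.Agent.P066
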