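import Vale.Agent.P066.Chrom

/-!
Hikita's formula, obtained from the modular law by a descent.
-/

namespace Vale.Agent.P066

open MvPolynomial

noncomputable def phi (N : ℕ) : L →ₐ[K] MvPolynomial (Fin N) K :=
  aeval fun m => esymm (Fin N) K m

noncomputable def Del (N : ℕ) (g : ℕ → ℕ) (n : ℕ) : MvPolynomial (Fin N) K :=
  Chi N g n - phi N (Psi g n)

theorem phi_C (N : ℕ) (c : K) : phi N (C c) = C c := by simp [phi]

theorem Del_congr {N n : ℕ} {g g' : ℕ → ℕ} (h : ∀ v, v < n → g v = g' v) :
    Del N g n = Del N g' n := by
  have e : Psi g n = Psi g' n := by
    rw [Psi, Psi, word, word, pr_congr n 0 0 fun v _ hv => h v (by omega)]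
  have e2 : Chi N g n = Chi N g' n := by
    simp only [Chi]
    refine Finset.sum_congr rfl fun f _ => ?_
    congr 2
    refine Finset.prod_congr rfl fun a _ => Finset.prod_congr rfl fun b _ => ?_
    rw [h b b.isLt]
  rw [Del, Del, e, e2]

theorem Del_modII {N : ℕ} {g : ℕ → ℕ} {n u t : ℕ} (hg : Good g n) (hu : u < n) (h1 : g u = t + 1)
    (htu : t + 2 ≤ u) (htw : g t = g (t + 1)) (hbelow : g (u - 1) ≤ t)
    (habove : u + 1 < n → t + 2 ≤ g (u + 1)) :
    C (1 + q) * Del N g n =
      C q * Del N (Function.update g u (t + 2)) n + Del N (Function.update g u t) n := by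
  have h := congrArg (phi N) (Psi_modII hg hu h1 htu htw hbelow habove)
  simp only [map_add, map_mul, phi_C] at h
  have h' := Chi_modII (N := N) hg hu h1 htu htw hbelow habove
  simp only [Del, map_add] at h' ⊢
  linear_combination h' - h

theorem Del_modI {N : ℕ} {g : ℕ → ℕ} {n j a : ℕ} (hg : Good g n) (hj : j + 1 < n) (h1 : g j = a)
    (h2 : g (j + 1) = a) (ha : a < j) (hne : ∀ u, u < n → g u ≠ j + 1)
    (h3 : j + 2 < n → a < g (j + 2)) :
    C (1 + q) * Del N (Function.update g (j + 1) (a + 1)) n =
      C q * Del N (Function.update (Function.update g (j + 1) (a + 1)) j (a + 1)) n + Del N g n := by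
  have h := congrArg (phi N) (Psi_modI hg hj h1 h2 ha hne h3)
  simp only [map_add, map_mul, phi_C] at h
  have h' := Chi_modI (N := N) hg hj h1 h2 ha hne
  simp only [Del, map_add] at h' ⊢
  linear_combination h' - h

/-- number of edges -/
def eg (g : ℕ → ℕ) (n : ℕ) : ℕ := ∑ v ∈ Finset.range n, (v - g v)

def ph2 (g : ℕ → ℕ) (n : ℕ) : ℕ := ∑ v ∈ Finset.range n, v * g v

theorem sum_update {g : ℕ → ℕ} {n x : ℕ} (F : ℕ → ℕ → ℕ) (hx : x < n) (y : ℕ) :
    (∑ v ∈ Finset.range n, F v (Function.update g x y v)) + F x (g x) =
      (∑ v ∈ Finset.range n, F v (g v)) + F x y := by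
  rw [← Finset.add_sum_erase _ _ (Finset.mem_range.2 hx),
    ← Finset.add_sum_erase _ (fun v => F v (g v)) (Finset.mem_range.2 hx)]
  have : ∑ v ∈ (Finset.range n).erase x, F v (Function.update g x y v) =
      ∑ v ∈ (Finset.range n).erase x, F v (g v) :=
    Finset.sum_congr rfl fun v hv => by rw [Function.update_of_ne (Finset.ne_of_mem_erase hv)]
  rw [this, Function.update_self]
  ring

theorem eg_update {g : ℕ → ℕ} {n x : ℕ} (hx : x < n) (y : ℕ) :
    eg (Function.update g x y) n + (x - g x) = eg g n + (x - y) :=
  sum_update (fun v z => v - z) hx y

theorem ph2_update {g : ℕ → ℕ} {n x : ℕ} (hx : x < n) (y : ℕ) :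
    ph2 (Function.update g x y) n + x * g x = ph2 g n + x * y :=
  sum_update (fun v z => v * z) hx y

theorem Good.update {g : ℕ → ℕ} {n x y : ℕ} (hg : Good g n) (hy : y ≤ x)
    (hlo : ∀ v, v < x → v < n → g v ≤ y) (hhi : ∀ v, x < v → v < n → y ≤ g v) :
    Good (Function.update g x y) n := by
  constructor
  · intro v hv
    rw [Function.update_apply]
    split_ifs with h
    · omega
    · exact hg.le_self v hv
  · intro u v huv hv
    rw [Function.update_apply, Function.update_apply]
    split_ifs with h1 h2 h2
    · exact le_rfl
    · exact hhi v (by omega) hv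
    · exact hlo u (by omega) (by omega)
    · exact hg.mono u v huv hv

def Cg (i v : ℕ) : ℕ := if v < i then 0 else v - 1

def Ag (i m v : ℕ) : ℕ := if v = i then m else Cg i v

theorem Good_Ag (n : ℕ) {i m : ℕ} (hm : m ≤ i) : Good (Ag i m) n := by
  constructor
  · intro v _
    simp only [Ag, Cg]; split_ifs <;> omega
  · intro u v huv _
    simp only [Ag, Cg]; split_ifs <;> omega

theorem Del_path {N n : ℕ} (hn : 0 < n)
    (IH : ∀ m, m < n → ∀ g, Good g m → Del N g m = 0) : Del N (Cg 1) n = 0 := by
  have step : ∀ i, 1 ≤ i → i < n →
      Del N (Cg (i + 1)) n = C (qn i) * Del N (Cg i) n := by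
    intro i hi hin
    have d0 : Del N (Ag i i) n = 0 := by
      have hG := Good_Ag n (le_refl i)
      have hi' : Ag i i i = i := if_pos rfl
      rw [Del, Chi_split hG hin hi', Psi_split hG hin hi', map_mul]
      have a1 := IH i hin (Ag i i) (Good_Ag i le_rfl)
      have a2 := IH (n - i) (by omega) (fun x => Ag i i (x + i) - i)
        ⟨fun v hv => by have := hG.le_self (v + i) (by omega); omega,
         fun u v h hv => Nat.sub_le_sub_right (hG.mono (u + i) (v + i) (by omega) (by omega)) i⟩
      rw [Del, sub_eq_zero] at a1 a2
      rw [a1, a2, sub_self]
    have rec' : ∀ k, k ≤ i → Del N (Ag i (i - k)) n = C (qn k) * Del N (Ag i (i - 1)) n := by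
      intro k
      induction k using Nat.strong_induction_on with
      | _ k ih =>
        intro hk
        match k, ih, hk with
        | 0, _, _ => simpa using d0
        | 1, _, _ => simp
        | k + 2, ih, hk =>
          have h1 := ih (k + 1) (by omega) (by omega)
          have h0 := ih k (by omega) (by omega)
          have hm := Del_modII (N := N) (g := Ag i (i - (k + 1))) (u := i) (t := i - (k + 2))
            (Good_Ag n (by omega)) hin (by rw [Ag, if_pos rfl]; omega) (by omega)
            (by simp only [Ag, Cg]; split_ifs <;> omega)
            (by simp only [Ag, Cg]; split_ifs <;> omega)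
            (fun _ => by simp only [Ag, Cg]; split_ifs <;> omega)
          have u1 : Function.update (Ag i (i - (k + 1))) i (i - (k + 2) + 2) = Ag i (i - k) := by
            funext v; simp only [Function.update_apply, Ag]; split_ifs <;> omega
          have u2 : Function.update (Ag i (i - (k + 1))) i (i - (k + 2)) = Ag i (i - (k + 2)) := by
            funext v; simp only [Function.update_apply, Ag]; split_ifs <;> omega
          rw [u1, u2, h1, h0] at hm
          have hq : qn (k + 2) = (1 + q) * qn (k + 1) - q * qn k := by
            rw [qn_succ (k + 1), qn_succ k]; ring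
          rw [hq, map_sub, map_mul, map_mul]
          linear_combination -hm
    have e1 : Del N (Ag i (i - i)) n = Del N (Cg (i + 1)) n :=
      Del_congr fun v _ => by simp only [Ag, Cg]; split_ifs <;> omega
    have e2 : Del N (Ag i (i - 1)) n = Del N (Cg i) n :=
      Del_congr fun v _ => by simp only [Ag, Cg]; split_ifs <;> omega
    rw [← e1, ← e2, rec' i le_rfl]
  have top : Del N (Cg n) n = 0 := by
    obtain ⟨m, rfl⟩ : ∃ m, n = m + 1 := ⟨n - 1, by omega⟩
    have h : ∀ v, v < m + 1 → Cg (m + 1) v = 0 := fun v hv => if_pos hv
    rw [Del, Chi_clique _ _ h, Psi_clique _ m h, map_mul, phi_C]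
    simp [phi]
  have down : ∀ k, k < n → Del N (Cg (n - k)) n = 0 := by
    intro k
    induction k with
    | zero => intro _; simpa using top
    | succ k ih =>
      intro hk
      have h := step (n - (k + 1)) (by omega) (by omega)
      rw [show n - (k + 1) + 1 = n - k by omega, ih (by omega)] at h
      refine (mul_eq_zero.1 h.symm).resolve_left ?_
      simp only [C_eq_zero]
      exact qn_ne_zero (by omega)
  simpa [show n - (n - 1) = 1 by omega] using down (n - 1) (by omega)

theorem hikita (N : ℕ) : ∀ n g, Good g n → Del N g n = 0 := by
  intro n
  induction n using Nat.strong_induction_on with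
  | _ n IH =>
    rcases Nat.eq_zero_or_pos n with rfl | hn
    · intro g _; simp [Del, Psi_zero, Chi, cw]
    suffices H : ∀ e p g, Good g n → eg g n = e → ph2 g n = p → Del N g n = 0 from
      fun g hg => H _ _ g hg rfl rfl
    intro e
    induction e using Nat.strong_induction_on with
    | _ e IHe =>
      intro p
      induction p using Nat.strong_induction_on with
      | _ p IHp =>
        intro g hg he hp
        by_cases hdis : ∃ m, 0 < m ∧ m < n ∧ g m = m
        · obtain ⟨m, hm0, hmn, hm⟩ := hdis
          have a1 := IH m hmn g ⟨fun v hv => hg.le_self v (by omega),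
            fun u v h hv => hg.mono u v h (by omega)⟩
          have a2 := IH (n - m) (by omega) (fun x => g (x + m) - m)
            ⟨fun v hv => by have := hg.le_self (v + m) (by omega); omega,
             fun u v h hv => Nat.sub_le_sub_right (hg.mono (u + m) (v + m) (by omega) (by omega)) m⟩
          rw [Del, sub_eq_zero] at a1 a2
          rw [Del, Chi_split hg hmn hm, Psi_split hg hmn hm, map_mul, a1, a2, sub_self]
        push Not at hdis
        have conn : ∀ v, 0 < v → v < n → g v < v := fun v h1 h2 =>
          lt_of_le_of_ne (hg.le_self v h2) (hdis v h1 h2)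
        by_cases hpath : ∀ v, v < n → g v = Cg 1 v
        · rw [Del_congr hpath]; exact Del_path hn IH
        -- some pair of twins
        set P := (Finset.range n).filter fun j => j + 1 < n ∧ g j = g (j + 1) ∧ g j < j with hP
        have hex : ∃ v, v < n ∧ g v + 1 < v := by
          by_contra hc
          push Not at hc
          apply hpath
          intro v hv
          rcases Nat.eq_zero_or_pos v with rfl | hv0
          · have := hg.le_self 0 hv; simp [Cg]; omega
          · have := conn v hv0 hv; have := hc v hv
            simp only [Cg]; split_ifs <;> omega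
        have hPne : P.Nonempty := by
          obtain ⟨v, ⟨hvn, hgv⟩, hmin'⟩ : ∃ v, (v < n ∧ g v + 1 < v) ∧
              ∀ m, m < v → ¬ (m < n ∧ g m + 1 < m) :=
            ⟨Nat.find hex, Nat.find_spec hex, fun m h => Nat.find_min hex h⟩
          have hmin := hmin' (v - 1) (by omega)
          have h1 := conn (v - 1) (by omega) (by omega)
          have h2 := hg.mono (v - 1) v (by omega) hvn
          refine ⟨v - 1, Finset.mem_filter.2 ⟨Finset.mem_range.2 (by omega), by omega, ?_, ?_⟩⟩
          · rw [show v - 1 + 1 = v by omega]; omega
          · omega
        set j := P.max' hPne with hj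
        obtain ⟨hjn, hj1, hjtw, hja⟩ : j < n ∧ j + 1 < n ∧ g j = g (j + 1) ∧ g j < j := by
          have := Finset.mem_filter.1 (P.max'_mem hPne)
          exact ⟨Finset.mem_range.1 this.1, this.2⟩
        have hmax : ∀ x, x + 1 < n → g x = g (x + 1) → g x < x → x ≤ j := fun x a b c =>
          P.le_max' x (Finset.mem_filter.2 ⟨Finset.mem_range.2 (by omega), a, b, c⟩)
        set a := g j with ha
        have h3 : j + 2 < n → a < g (j + 2) := by
          intro h
          by_contra hc
          have := hg.mono (j + 1) (j + 2) (by omega) h
          have := hmax (j + 1) h (show g (j + 1) = g (j + 2) by omega) (by omega)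
          omega
        have lo : ∀ v, v < j + 1 → v < n → g v ≤ a := fun v h1 h2 =>
          hg.mono v j (by omega) hjn
        have hi : ∀ v, j + 1 < v → v < n → a + 1 ≤ g v := fun v h1 h2 => by
          have := h3 (by omega)
          have := hg.mono (j + 2) v (by omega) h2
          omega
        by_cases hu : ∀ u, u < n → g u ≠ j + 1
        · set g1 := Function.update g (j + 1) (a + 1) with hg1
          set g0 := Function.update g1 j (a + 1) with hg0
          have G1 : Good g1 n := hg.update (by omega) (fun v b c => by have := lo v b c; omega) hi
          have b1 : g1 j = a := by rw [hg1, Function.update_of_ne (by omega)]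
          have G0 : Good g0 n := by
            refine G1.update (by omega) (fun v b c => ?_) (fun v b c => ?_)
            · rw [hg1, Function.update_of_ne (by omega)]; have := lo v (by omega) c; omega
            · rw [hg1, Function.update_apply]
              split_ifs with h
              · exact le_rfl
              · exact hi v (by omega) c
          have e1 := eg_update (g := g) hj1 (a + 1)
          have e0 := eg_update (g := g1) hjn (a + 1)
          rw [← hg1] at e1
          rw [← hg0, b1] at e0
          have := IHe (eg g1 n) (by omega) _ g1 G1 rfl rfl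
          have := IHe (eg g0 n) (by omega) _ g0 G0 rfl rfl
          have hm := Del_modI (N := N) hg hj1 rfl hjtw.symm hja hu h3
          simp_all
        push Not at hu
        obtain ⟨u, hun, hgu⟩ := hu
        have huj : j + 2 ≤ u := by
          by_contra hc
          rcases Nat.lt_or_ge u (j + 1) with h | h
          · have := hg.le_self u hun; omega
          · rw [show u = j + 1 by omega] at hgu; omega
        have hbelow : g (u - 1) ≤ j := by
          by_contra hc
          have := hg.mono (u - 1) u (by omega) hun
          have := conn (u - 1) (by omega) (by omega)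
          have := hmax (u - 1) (by omega)
            (show g (u - 1) = g (u - 1 + 1) by rw [show u - 1 + 1 = u by omega]; omega) (by omega)
          omega
        have habove : u + 1 < n → j + 2 ≤ g (u + 1) := by
          intro h
          by_contra hc
          have := hg.mono u (u + 1) (by omega) h
          have := conn u (by omega) hun
          have := hmax u h (by omega) (by omega)
          omega
        have below' : ∀ v, v < u → v < n → g v ≤ j := fun v b c =>
          le_trans (hg.mono v (u - 1) (by omega) (by omega)) hbelow
        have above' : ∀ v, u < v → v < n → j + 2 ≤ g v := fun v b c =>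
          le_trans (habove (by omega)) (hg.mono (u + 1) v b c)
        set G2 := Function.update g u j with hG2
        set G0 := Function.update g u (j + 2) with hG0
        have gG0 : Good G0 n := hg.update huj (fun v b c => by have := below' v b c; omega) above'
        have gG2 : Good G2 n := hg.update (by omega) below' (fun v b c => by
          have := above' v b c; omega)
        have d0 : Del N G0 n = 0 := by
          have e0 := eg_update (g := g) hun (j + 2)
          rw [← hG0, hgu] at e0
          exact IHe _ (by omega) _ G0 gG0 rfl rfl
        have c2 : ∀ v, v ≠ u → G2 v = g v := fun v h => Function.update_of_ne h ..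
        have c2u : G2 u = j := Function.update_self ..
        have gj : G2 j = a := c2 j (by omega)
        have gj1 : G2 (j + 1) = a := (c2 (j + 1) (by omega)).trans hjtw.symm
        have hne : ∀ v, v < n → G2 v ≠ j + 1 := by
          intro v hv
          rcases eq_or_ne v u with rfl | hvu
          · omega
          · rw [c2 v hvu]
            rcases lt_or_gt_of_ne hvu with h | h
            · have := below' v h hv; omega
            · have := above' v h hv; omega
        have h3' : j + 2 < n → a < G2 (j + 2) := by
          intro h
          rcases eq_or_ne (j + 2) u with e' | e'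
          · rw [e', c2u]; omega
          · rw [c2 _ e']; exact h3 h
        set g1 := Function.update G2 (j + 1) (a + 1) with hg1
        set g0 := Function.update g1 j (a + 1) with hg0
        have hi2 : ∀ v, j + 1 < v → v < n → a + 1 ≤ G2 v := fun v b c => by
          rcases eq_or_ne v u with rfl | e'
          · omega
          · rw [c2 v e']; exact hi v b c
        have G1' : Good g1 n := gG2.update (by omega) (fun v b c => by
          rw [c2 v (by omega)]; have := lo v b c; omega) hi2
        have b1 : g1 j = a := by rw [hg1, Function.update_of_ne (by omega), gj]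
        have G0' : Good g0 n := by
          refine G1'.update (by omega) (fun v b c => ?_) (fun v b c => ?_)
          · rw [hg1, Function.update_of_ne (by omega), c2 v (by omega)]
            have := lo v (by omega) c; omega
          · rw [hg1, Function.update_apply]
            split_ifs with h
            · exact le_rfl
            · exact hi2 v (by omega) c
        have e2 := eg_update (g := g) hun j
        have e1 := eg_update (g := G2) hj1 (a + 1)
        have e0 := eg_update (g := g1) hjn (a + 1)
        have q2 := ph2_update (g := g) hun j
        have q1 := ph2_update (g := G2) hj1 (a + 1)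
        rw [← hG2, hgu] at e2 q2
        rw [← hg1, gj1] at e1 q1
        rw [← hg0, b1] at e0
        have d1 : Del N g1 n = 0 := by
          refine IHp (ph2 g1 n) ?_ g1 G1' (by omega) rfl
          have r1 : (j + 1) * (a + 1) = (j + 1) * a + (j + 1) := by ring
          have r2 : u * (j + 1) = u * j + u := by ring
          omega
        have d0' : Del N g0 n = 0 := IHe _ (by omega) _ g0 G0' rfl rfl
        have hA := Del_modI (N := N) gG2 hj1 gj gj1 hja hne h3'
        have hB := Del_modII (N := N) hg hun hgu huj hjtw hbelow habove
        rw [← hg0, ← hg1, d1, d0', mul_zero, mul_zero, zero_add] at hA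
        rw [← hG0, ← hG2, d0, ← hA, mul_zero, add_zero] at hB
        refine (mul_eq_zero.1 hB).resolve_left ?_
        simp only [C_eq_zero]
        exact qn_two_ne

end Vale.Agent.P066
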